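import Vale.Agent.P011UE0.SA

/-! Noncentral normal subgroups have finite index: the abstract setting. -/

namespace Vale.Agent.P011UE0

open Module Topology Filter Vale.Agent.P011NC
open scoped commutatorElement Pointwise

namespace Adl

variable {k A Ω : Type} [Field k] [Ring A] [StarRing A] [Algebra k A] [Field Ω]
  [Algebra k Ω] {n : ℕ} {P : Type} {F E Om : P → Type} [∀ v, NontriviallyNormedField (F v)]
  [∀ v, NormedRing (E v)] [∀ v, StarRing (E v)] [∀ v, NormedAlgebra (F v) (E v)]
  [∀ v, Field (Om v)] [∀ v, Algebra (F v) (Om v)] (H : Adl k A Ω n F E Om)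

/-- The elements which are integral at `w` up to unipotent elements. -/
def J (w : P) : Subgroup H.M.SU := (Gp (E w) ⊔ H.K w).comap (H.q w)

variable [∀ v, ContinuousStar (E v)]

theorem isOpen_K {w : P} (hw : w ∉ H.arch) : IsOpen (H.K w : Set (unitary (E w))) := by
  have := H.ultra w hw
  exact Subgroup.isOpen_of_mem_nhds _ ((ev_Kc (H.norm_one w) one_pos).mono fun _ a => a.1)

variable [∀ v, ProperSpace (F v)]

variable [DecidableEq P]

theorem pole_induction {S : Finset P} (h1 : H.arch ⊆ S) (h2 : (H.D S : Set H.M.SU).Infinite)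
    (N : Subgroup H.M.SU) [N.Normal] (h : ¬N ≤ Subgroup.center _) (U : Finset P) :
    ∀ g : H.M.SU, (∀ w ∉ S, g ∈ H.J w) → (∀ w ∉ S, w ∉ U → H.q w g ∈ H.K w) →
      g ∈ N ⊔ H.D S := by
  induction U using Finset.induction_on with
  | empty => exact fun g _ b => Subgroup.mem_sup_right (H.mem_D'.2 fun w hw => b w hw (by simp))
  | insert w U _ ih =>
    intro g a b
    by_cases hw : w ∈ S
    · exact ih g a fun v hv hv' => b v hv (by
        rw [Finset.mem_insert, not_or]
        exact ⟨fun e => hv (e ▸ hw), hv'⟩)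
    obtain ⟨u, hu, z, hz, e⟩ := Subgroup.mem_sup_of_normal_left.1 (a w hw)
    obtain ⟨_, h3, y, hy, rfl⟩ := mem_closure_iff_nhds.1 (H.sa h1 h2 hw (H.nst
      (h1.trans (Finset.subset_insert w S)) (Finset.insert_nonempty _ _) N h) hu) _
      ((Continuous.tendsto' (f := fun x => x⁻¹ * u) (by fun_prop) u 1 (inv_mul_cancel u)).eventually
        ((H.isOpen_K fun e => hw (h1 e)).mem_nhds (one_mem _)))
    have h4 : H.q w (y⁻¹ * g) ∈ H.K w := by
      rw [map_mul, map_inv, ← e, ← mul_assoc]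
      exact mul_mem h3 hz
    have h5 : ∀ v ∉ S, v ≠ w → H.q v y⁻¹ ∈ H.K v := fun v hv e =>
      H.mem_D'.1 (inv_mem hy.2) v (by simp [hv, e])
    have h6 := ih (y⁻¹ * g) (fun v hv => ?_) fun v hv hv' => ?_
    · simpa using mul_mem (Subgroup.mem_sup_left hy.1) h6
    · by_cases e : v = w
      · exact e ▸ Subgroup.mem_sup_right h4
      · exact mul_mem (Subgroup.mem_sup_right (h5 v hv e)) (a v hv)
    · by_cases e : v = w
      · exact e ▸ h4
      · rw [map_mul]
        exact mul_mem (h5 v hv e) (b v hv (by simp [e, hv']))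

theorem sup_D {S : Finset P} (h1 : H.arch ⊆ S) (h2 : (H.D S : Set H.M.SU).Infinite)
    (hS : ∀ w ∉ S, (H.L w).SU ≤ Gp (E w)) (N : Subgroup H.M.SU) [N.Normal]
    (h : ¬N ≤ Subgroup.center _) : N ⊔ H.D S = ⊤ := (Subgroup.eq_top_iff' _).2 fun g =>
  H.pole_induction h1 h2 N h (H.finite_poles g).toFinset g
    (fun w hw => Subgroup.mem_sup_left (hS w hw (H.q_SU w g)))
    fun w _ hw => not_not.1 fun e => hw ((Set.Finite.mem_toFinset _).2 e)

/-- **Noncentral normal subgroups have finite index.** -/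
theorem index_ne_zero {T : Finset P} (hT : ∀ w ∉ T, (H.L w).SU ≤ Gp (E w))
    (N : Subgroup H.M.SU) [N.Normal] (h : ¬N ≤ Subgroup.center _) : N.index ≠ 0 := by
  obtain ⟨S, h1, h2, h3⟩ := H.exists_infinite (T ∪ H.arch)
  have h5 := Finset.subset_union_right.trans h1
  rw [← Subgroup.relIndex_top_right, ← H.sup_D h5 h3 (fun w hw => hT w fun e =>
    hw (h1 (Finset.mem_union_left _ e))) N h, Subgroup.relIndex_sup_left]
  exact H.nst h5 h2 N h

end Adl

end Vale.Agent.P011UE0
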