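import Vale.Agent.P011UE0.Full
import Vale.Agent.P011UE1.Glob
import Vale.Agent.P011NC.Pl
import Vale.Agent.P011.H268.Csa

/-! Local solvability at all the places of a global field. -/

namespace Vale.Agent.P011UE0

open Module TensorProduct NumberField Vale.Agent.P011NC Vale.Agent.P011UE1

variable {k A Ω D : Type} [Field k] [Ring A] [StarRing A] [Algebra k A] [Field Ω] [Algebra k Ω]
  {n : ℕ} [Ring D] [Algebra k D]

/-- The base change of the projection. -/
noncomputable def piE (M : Mdl k A Ω n) (p : A →ₐ[k] D) (F : Type) [Field F] [Algebra k F] :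
    M.Ev F →ₐ[F] F ⊗[k] D := Algebra.TensorProduct.map (AlgHom.id F F) p

theorem piE_jE (M : Mdl k A Ω n) (p : A →ₐ[k] D) (F : Type) [Field F] [Algebra k F] (y : A) :
    piE M p F (M.jE F y) = 1 ⊗ₜ p y := rfl

theorem Pj.loc {M : Mdl k A Ω n} {p : A →ₐ[k] D} (h : Pj M p) (F Om : Type) [Field F]
    [Algebra k F] [Field Om] [Algebra F Om] [Algebra k Om] [IsScalarTower k F Om]
    (ψ : Ω →ₐ[k] Om) : Pj (M.locM F Om ψ) (piE M p F) := by
  obtain ⟨σ, hσ⟩ := p.toLinearMap.exists_rightInverse_of_surjective
    (LinearMap.range_eq_top.2 h.surj)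
  have h1 : ∀ y, p (σ y) = y := fun y => congr($hσ y)
  let s : F ⊗[k] D →ₗ[F] M.Ev F := σ.baseChange F
  have h2 : ∀ x, M.jE F M.om * s (piE M p F x) = M.jE F M.om * x := fun x => by
    induction x using Mdl.Ev_ind with
    | h0 => rw [map_zero, map_zero]
    | h1 c y =>
      rw [map_smul, map_smul, mul_smul_comm, mul_smul_comm, piE_jE,
        show s (1 ⊗ₜ p y) = M.jE F (σ (p y)) from rfl, ← map_mul, ← map_mul,
        sub_eq_zero.1 ((mul_sub _ _ _).symm.trans ((h.ker (σ (p y) - y)).1
          (by rw [map_sub, h1, sub_self])))]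
    | h2 x y a b => rw [map_add, map_add, mul_add, mul_add, a, b]
  refine ⟨Algebra.TensorProduct.map_surjective _ _ Function.surjective_id h.surj,
    fun x => ⟨fun e => ?_, fun e => ?_⟩, ?_⟩
  · change M.jE F M.om * x = 0
    rw [← h2, e, map_zero, mul_zero]
  · have := congrArg (piE M p F) e
    rwa [map_mul, map_zero, show (M.locM F Om ψ).om = M.jE F M.om from rfl, piE_jE, h.one,
      ← Algebra.TensorProduct.one_def, one_mul] at this
  · change M.jE F M.om * star (M.jE F M.om) = 0
    rw [← M.jE_star, ← map_mul, h.om, map_zero]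

/-- The completions are ultrametric or connected. -/
def Cn {P : Type} {a : P → AbsoluteValue k ℝ} (G : GF k a) : Prop :=
  ∀ v, IsUltrametricDist (G.Fv v) ∨ PreconnectedSpace (G.Fv v)

theorem cn_FF [P011.H271.GFF k] : Cn (gfFF k) := fun _ => Or.inl ((gfFF k).ultra_Fv (by
  simp [gfFF]))

theorem cn_NF [NumberField k] : Cn (gfNF k) := by
  rintro (v | w)
  · exact Or.inl ((gfNF k).ultra_Fv (by simp [gfNF]))
  · right
    have e := (InfinitePlace.Completion.isometryEquivCompletion w).toHomeomorph
    rcases w.isReal_or_isComplex with h | h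
    · exact ((InfinitePlace.Completion.isometryEquivRealOfIsReal h).toHomeomorph.symm.trans
        e).surjective.denseRange.preconnectedSpace (Homeomorph.continuous _)
    · exact ((InfinitePlace.Completion.isometryEquivComplexOfIsComplex h).toHomeomorph.symm.trans
        e).surjective.denseRange.preconnectedSpace (Homeomorph.continuous _)

/-- **Local solvability at all the places.** -/
theorem ls_all [IsSimpleRing D] [Algebra.IsCentral k D] {P : Type} {a : P → AbsoluteValue k ℝ}
    {G : GF k a} (hG : Cn G) {M : Mdl k A Ω n} {p : A →ₐ[k] D} (h : Pj M p) (h0 : 0 < n)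
    (hn : 2 ≤ n) (hd : Ani M) (v : P) : LS ((adl G M h0 hn hd).L v) := by
  have : IsSimpleRing (G.Fv v ⊗[k] D) := P011.H268.isSimpleRing_baseChange
  exact ls (h.loc _ _ _) (hG v)

end Vale.Agent.P011UE0
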