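import Vale.Agent.P011NC.Adel

/-! A reduced algebra with involution and its completions: the abstract setting. -/

namespace Vale.Agent.P011UE0

open Module Topology Filter Vale.Agent.P011NC
open scoped commutatorElement

/-- The algebra `A` with its completions `E v`. -/
structure Adl (k A Ω : Type) [Field k] [Ring A] [StarRing A] [Algebra k A] [Field Ω]
    [Algebra k Ω] (n : ℕ) {P : Type} (F E Om : P → Type) [∀ v, NontriviallyNormedField (F v)]
    [∀ v, NormedRing (E v)] [∀ v, StarRing (E v)] [∀ v, NormedAlgebra (F v) (E v)]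
    [∀ v, Field (Om v)] [∀ v, Algebra (F v) (Om v)] where
  M : Mdl k A Ω n
  L : ∀ v, Mdl (F v) (E v) (Om v) n
  j : ∀ v, A →+* E v
  arch : Finset P
  le : 2 ≤ n
  red : IsReduced A
  j_star : ∀ v a, j v (star a) = star (j v a)
  j_om : ∀ v, j v M.om = (L v).om
  j_inj : ∀ v, Function.Injective (j v)
  j_det : ∀ v a, (M.f a).det = 1 → ((L v).f (j v a)).det = 1
  norm_one : ∀ v, ‖(1 : E v)‖ = 1
  ultra : ∀ v ∉ arch, IsUltrametricDist (E v)
  ex : ∃ v, v ∉ arch
  fin : ∀ a, {v | 1 < ‖j v a‖}.Finite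
  disc : ∀ c : P → ℝ, {v | 1 < c v}.Finite → {a | ∀ v, ‖j v a‖ ≤ c v}.Finite
  wa : ∀ (S : Finset P) (x : ∀ v, E v) (ε : ℝ), 0 < ε → ∃ a, ∀ v ∈ S, ‖j v a - x v‖ < ε
  coc : ∀ S : Finset P, arch ⊆ S → S.Nonempty → ∃ R : ℝ, ∀ g ∈ M.SU, ∃ d ∈ M.SU,
    (∀ v ∉ S, ‖j v d‖ ≤ 1 ∧ ‖j v (star d)‖ ≤ 1) ∧ ∀ v ∈ S, ‖j v (g * d)‖ ≤ R

namespace Adl

variable {k A Ω : Type} [Field k] [Ring A] [StarRing A] [Algebra k A] [Field Ω]
  [Algebra k Ω] {n : ℕ} {P : Type} {F E Om : P → Type} [∀ v, NontriviallyNormedField (F v)]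
  [∀ v, NormedRing (E v)] [∀ v, StarRing (E v)] [∀ v, NormedAlgebra (F v) (E v)]
  [∀ v, Field (Om v)] [∀ v, Algebra (F v) (Om v)] (H : Adl k A Ω n F E Om)

/-- The map of the unitary groups. -/
def jU (v : P) : unitary A →* unitary (E v) where
  toFun g := ⟨H.j v g, by rw [← H.j_star, ← map_mul, g.2.1, map_one],
    by rw [← H.j_star, ← map_mul, g.2.2, map_one]⟩
  map_one' := Subtype.ext (map_one _)
  map_mul' a b := Subtype.ext (map_mul _ _ _)

theorem jU_val (v : P) (g : unitary A) : (H.jU v g : E v) = H.j v g := rfl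

theorem jU_inj (v : P) : Function.Injective (H.jU v) := fun _ _ h =>
  Subtype.ext (H.j_inj v (congrArg Subtype.val h))

theorem jU_SU (v : P) {g : unitary A} (hg : g ∈ H.M.SU) : H.jU v g ∈ (H.L v).SU :=
  H.j_det v g hg

/-- The diagonal map to the places of `S`. -/
def pU (S : Finset P) : unitary A →* ∀ v : S, unitary (E v) := MonoidHom.pi fun v => H.jU v

theorem pU_apply (S : Finset P) (g : unitary A) (v : S) : H.pU S g v = H.jU v g := rfl

/-- The integral elements at a place. -/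
def K (v : P) : Subgroup (unitary (E v)) := Kb (H.norm_one v)

/-- The `S`-integral elements. -/
def D (S : Finset P) : Subgroup H.M.SU :=
  ⨅ v ∉ S, (H.K v).comap ((H.jU v).comp H.M.SU.subtype)

theorem mem_D {S : Finset P} {g : H.M.SU} : g ∈ H.D S ↔ ∀ v ∉ S, H.jU v g ∈ H.K v := by
  simp [D, Subgroup.mem_iInf]

theorem D_mono {S T : Finset P} (h : S ⊆ T) : H.D S ≤ H.D T := fun _ hg =>
  H.mem_D.2 fun v hv => H.mem_D.1 hg v fun h' => hv (h h')

theorem finite_poles (g : unitary A) : {v | H.jU v g ∉ H.K v}.Finite := by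
  refine ((H.fin g).union (H.fin (star (g : A)))).subset fun v hv => ?_
  by_contra hc
  simp only [Set.mem_union, Set.mem_ofPred_eq, not_or, not_lt, H.j_star] at hc
  exact hv hc

theorem j_den (v : P) (x : A) :
    H.j v (1 - star H.M.om * x) = 1 - star (H.L v).om * H.j v x := by
  rw [map_sub, map_one, map_mul, H.j_star, H.j_om]

theorem j_cay (v : P) {x : A} (h : IsUnit (1 - star H.M.om * x)) :
    H.j v (H.M.cay x) = (H.L v).cay (H.j v x) := by
  have h2 : IsUnit (1 - star (H.L v).om * H.j v x) := H.j_den v x ▸ h.map (H.j v)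
  apply h2.mul_right_cancel
  rw [(H.L v).cay_mul h2, ← H.j_den, ← map_mul, H.M.cay_mul h, map_add, map_one, map_mul, H.j_om]

theorem unit_of (v : P) {x : A} (h : IsUnit (H.j v x)) : IsUnit x := by
  have := H.M.fd
  have hi : Function.Injective (LinearMap.mulLeft k x) := fun y z e => H.j_inj v
    (h.mul_left_cancel (by rw [← map_mul, ← map_mul]; exact congrArg (H.j v) e))
  obtain ⟨z, hz⟩ := LinearMap.injective_iff_surjective.1 hi 1
  have := H.M.dedekind
  exact ⟨⟨_, z, hz, mul_eq_one_comm.1 hz⟩, rfl⟩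

end Adl

end Vale.Agent.P011UE0
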