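import Vale.Agent.P011NC.SA

/-! The local lemmas for all degrees at least two. -/

namespace Vale.Agent.P011NC

open Module Topology Filter Matrix
open scoped commutatorElement Pointwise

/-- Subspaces of the matrices of degree two which are stable under brackets. -/
theorem lie_two {Ω : Type*} [Field Ω] (W : Submodule Ω (Matrix (Fin 2) (Fin 2) Ω))
    (hW : ∀ i j, i ≠ j → ∀ Z ∈ W, single i j 1 * Z - Z * single i j 1 ∈ W)
    {Z : Matrix (Fin 2) (Fin 2) Ω} (hZ : Z ∈ W) (hnc : ∃ Y, Z * Y ≠ Y * Z) :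
    (∀ Y : Matrix (Fin 2) (Fin 2) Ω, Y.trace = 0 → Y ∈ W) ∨ ((2 : Ω) = 0 ∧
      (Z 0 1 ≠ 0 ∨ Z 1 0 ≠ 0) ∧ Z 0 0 = Z 1 1 ∧ ∀ X ∈ W, Z 0 1 * X 1 0 = X 0 1 * Z 1 0) := by
  have hE : ∀ {X}, X ∈ W → !![X 1 0, X 1 1 - X 0 0; 0, -X 1 0] ∈ W := fun {X} h => by
    convert hW 0 1 (by decide) X h using 1
    ext i j
    fin_cases i <;> fin_cases j <;> simp [mul_apply, single]
  have hF : ∀ {X}, X ∈ W → !![-X 0 1, 0; X 0 0 - X 1 1, X 0 1] ∈ W := fun {X} h => by
    convert hW 1 0 (by decide) X h using 1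
    ext i j
    fin_cases i <;> fin_cases j <;> simp [mul_apply, single]
  have un : ∀ {t : Ω} {X Y}, t ≠ 0 → Y ∈ W → t • X = Y → X ∈ W := fun ht h e =>
    (W.smul_mem_iff ht).1 (e ▸ h)
  have key : !![0, 1; 0, 0] ∈ W → !![0, 0; 1, 0] ∈ W →
      ∀ Y : Matrix (Fin 2) (Fin 2) Ω, Y.trace = 0 → Y ∈ W := fun a b Y hY => by
    rw [trace_fin_two, add_eq_zero_iff_neg_eq] at hY
    convert W.add_mem (W.add_mem (W.smul_mem (Y 0 1) a) (W.smul_mem (Y 1 0) b))
      (W.smul_mem (Y 0 0) (hE b)) using 1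
    ext i j
    fin_cases i <;> fin_cases j <;> simp [hY]
  have h0 : Z 0 1 ≠ 0 ∨ Z 1 0 ≠ 0 ∨ Z 0 0 ≠ Z 1 1 := by
    by_contra hc
    push Not at hc
    obtain ⟨Y, hY⟩ := hnc
    refine hY ?_
    ext i j
    fin_cases i <;> fin_cases j <;> simp [Matrix.mul_apply, hc] <;> ring
  by_cases h2 : (2 : Ω) = 0
  swap
  · have a1 : !![0, 1; 0, 0] ∈ W → !![0, 0; 1, 0] ∈ W := fun h =>
      un (neg_ne_zero.2 h2) (hF (hF h)) (by
        ext i j
        fin_cases i <;> fin_cases j <;> simp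
        ring)
    have a2 : !![0, 0; 1, 0] ∈ W → !![0, 1; 0, 0] ∈ W := fun h =>
      un (neg_ne_zero.2 h2) (hE (hE h)) (by
        ext i j
        fin_cases i <;> fin_cases j <;> simp
        ring)
    by_cases hc : Z 1 0 = 0
    · by_cases ha : Z 0 1 = 0
      · have h := un (X := !![0, 1; 0, 0]) (sub_ne_zero.2 ((h0.resolve_left (· ha)).resolve_left
          (· hc)).symm) (hE hZ) (by simp [hc])
        exact .inl (key h (a1 h))
      · have h := un (X := !![0, 0; 1, 0]) (neg_ne_zero.2 (mul_ne_zero h2 ha)) (hF (hF hZ)) (by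
          ext i j
          fin_cases i <;> fin_cases j <;> simp
          ring)
        exact .inl (key (a2 h) h)
    · have h := un (X := !![0, 1; 0, 0]) (neg_ne_zero.2 (mul_ne_zero h2 hc)) (hE (hE hZ)) (by
        ext i j
        fin_cases i <;> fin_cases j <;> simp
        ring)
      exact .inl (key h (a1 h))
  by_cases h3 : ∃ X ∈ W, X 0 0 ≠ X 1 1
  · obtain ⟨X, hX, h3⟩ := h3
    have h : !![1, 0; 0, -1] ∈ W := un (sub_ne_zero.2 h3) (hF (hE hX)) (by
      ext i j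
      fin_cases i <;> fin_cases j <;> simp
      linear_combination -X 1 0 * h2)
    exact .inl (key (un (sub_ne_zero.2 h3.symm) (W.sub_mem (hE hX) (W.smul_mem (X 1 0) h))
      (by simp)) (un (sub_ne_zero.2 h3) (W.add_mem (hF hX) (W.smul_mem (X 0 1) h)) (by simp)))
  push Not at h3
  have h4 := h0.imp_right fun h => h.resolve_right (· (h3 Z hZ))
  have h : !![1, 0; 0, -1] ∈ W := h4.elim
    (fun a => un (neg_ne_zero.2 a) (hF hZ) (by simp [h3 Z hZ]))
    fun a => un a (hE hZ) (by simp [h3 Z hZ])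
  have h5 : ∀ X ∈ W, !![0, X 0 1; X 1 0, 0] ∈ W := fun X hX => by
    convert W.sub_mem hX (W.smul_mem (X 0 0) h) using 1
    ext i j
    fin_cases i <;> fin_cases j <;> simp
    linear_combination h3 X hX - X 0 0 * h2
  refine or_iff_not_imp_right.2 fun h6 => ?_
  obtain ⟨X, hX, h7⟩ : ∃ X ∈ W, Z 0 1 * X 1 0 ≠ X 0 1 * Z 1 0 := by
    by_contra hc
    push Not at hc
    exact h6 ⟨h2, h4, h3 Z hZ, hc⟩
  refine key (un (sub_ne_zero.2 h7) (W.sub_mem (W.smul_mem (X 1 0) (h5 Z hZ))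
    (W.smul_mem (Z 1 0) (h5 X hX))) ?_) (un (sub_ne_zero.2 h7.symm) (W.sub_mem
      (W.smul_mem (X 0 1) (h5 Z hZ)) (W.smul_mem (Z 0 1) (h5 X hX))) ?_) <;>
  · ext i j
    fin_cases i <;> fin_cases j <;> simp <;> ring

namespace Mdl

variable {F E Ω : Type*} [NontriviallyNormedField F] [NormedRing E] [StarRing E]
  [NormedAlgebra F E] [Field Ω] [Algebra F Ω] {n : ℕ} (M : Mdl F E Ω n)

section complete

variable [CompleteSpace F]

omit [CompleteSpace F] in
theorem span_lin {W : Submodule F E} {φ : Matrix (Fin n) (Fin n) Ω →ₗ[Ω] Matrix (Fin n) (Fin n) Ω}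
    {U : Submodule Ω (Matrix (Fin n) (Fin n) Ω)} (h : ∀ z ∈ W, φ (M.f z) ∈ U) {Z}
    (hZ : Z ∈ Submodule.span Ω (M.f '' W)) : φ Z ∈ U :=
  (Submodule.span_le (p := U.comap φ)).2 (by
    rintro _ ⟨z, hz, rfl⟩
    exact h z hz) hZ

/-- A subspace which is stable under conjugation by the elements close to one. -/
theorem traceless_two (hn : 2 ≤ n) {W : Submodule F E} {V : Set (unitary E)} (hV : V ∈ 𝓝 1)
    (hW : ∀ g ∈ V, g ∈ M.SU → ∀ z ∈ W, (g : E) * z * star (g : E) ∈ W)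
    (hnc : ∃ Z ∈ Submodule.span Ω (M.f '' W), ∃ Y, Z * Y ≠ Y * Z)
    {Y : Matrix (Fin n) (Fin n) Ω} (hY : Y.trace = 0) : Y ∈ Submodule.span Ω (M.f '' W) := by
  have b2 : ∀ y ∈ Tn F M.SU, ∀ z ∈ W, y * z - z * y ∈ W := by
    rintro y hy z hz
    have hs := M.Tn_le _ hy
    obtain ⟨γ, d, c2, c3⟩ := hy
    refine M.ad_mem d c2 hs ?_
    filter_upwards [ev_of_path hV d.hasDerivAt.continuousAt c2 c3] with t ⟨g, hg, hgV, e⟩
    exact e ▸ hW g hgV hg z hz
  rcases hn.eq_or_lt with rfl | h3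
  swap
  · exact M.traceless_mem h3 b2 hnc hY
  obtain ⟨Z, hZ, h⟩ := hnc
  have b0 : ∀ {x}, x ∈ W → M.f x ∈ Submodule.span Ω (M.f '' W) := fun h =>
    Submodule.subset_span ⟨_, h, rfl⟩
  refine (lie_two _ (fun i j hij X hX => M.span_lin (φ := LinearMap.mulRight Ω X -
    LinearMap.mulLeft Ω X) (fun y hy => M.span_lin (φ := LinearMap.mulLeft Ω (M.f y) -
      LinearMap.mulRight Ω (M.f y)) (fun z hz => by simpa using b0 (b2 y hy z hz))
        hX) (M.single_mem hij)) hZ h).elim (fun a => a Y hY) fun ⟨a1, a2, a3, a4⟩ => ?_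
  let K : Submodule Ω (Matrix (Fin 2) (Fin 2) Ω) :=
    { carrier := {X | (Z 0 1 * X 1 0 + Z 1 0 * X 0 1) ^ 2 = Z 0 1 * Z 1 0 * (X 0 0 + X 1 1) ^ 2}
      add_mem' := fun {X Y} a b => by
        simp only [Set.mem_ofPred_eq, Matrix.add_apply] at a b ⊢
        linear_combination a + b + ((Z 0 1 * X 1 0 + Z 1 0 * X 0 1) *
          (Z 0 1 * Y 1 0 + Z 1 0 * Y 0 1) - Z 0 1 * Z 1 0 * (X 0 0 + X 1 1) * (Y 0 0 + Y 1 1)) * a1
      zero_mem' := by simp
      smul_mem' := fun c X a => by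
        simp only [Set.mem_ofPred_eq, Matrix.smul_apply, smul_eq_mul] at a ⊢
        linear_combination c ^ 2 * a }
  have b3 : ∀ g ∈ V, g ∈ M.SU → M.f g ∈ K := fun g hg hg' => by
    have e : M.f (star (g : E)) = (M.f g).adjugate := by
      rw [← mul_one (adjugate _), ← M.f_mul_star g, ← mul_assoc, adjugate_mul, M.mem_SU.1 hg',
        one_smul, one_mul]
    have h4 := a4 _ (M.span_lin (φ := (LinearMap.mulRight Ω (M.f (star (g : E)))).comp
      (LinearMap.mulLeft Ω (M.f g)))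
      (fun z hz => by simpa using b0 (hW g hg hg' z hz)) hZ)
    generalize M.f g = X at e h4 ⊢
    simp [e, adjugate_fin_two, mul_apply, a3] at h4
    change (_ : Ω) = _
    linear_combination -h4 + (Z 0 1 * X 1 0 * Z 1 0 * X 0 1 + Z 1 0 ^ 2 * X 0 1 ^ 2 -
      Z 0 1 * Z 1 0 * X 0 0 * X 1 1 - Z 0 1 * Z 1 0 * X 0 0 ^ 2) * a1
  have b4 : ∀ i j, i ≠ j → single i j (1 : Ω) ∈ K := fun i j hij =>
    M.span_lin (W := Tn F M.SU) (φ := LinearMap.id) (fun y ⟨γ, d, c2, c3⟩ => M.deriv_mem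
      (W := (K.restrictScalars F).comap M.f.toLinearMap) d
      ((ev_of_path hV d.hasDerivAt.continuousAt c2 c3).mono fun t ⟨g, hg, hgV, e⟩ =>
        e ▸ b3 g hgV hg)) (M.single_mem hij)
  have b5 : (_ : Ω) = _ := b4 0 1 (by decide)
  have b6 : (_ : Ω) = _ := b4 1 0 (by decide)
  simp at b5 b6
  exact (a2.elim (· b6) (· b5)).elim

/-- **Openness.** -/
theorem open_two (hn : 2 ≤ n) {P : Subgroup (unitary E)} {a : unitary E}
    (ha : ∃ x, (a : E) * x ≠ x * a) {V : Set (unitary E)} (hV : V ∈ 𝓝 1)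
    (h1 : ∀ g ∈ V, g ∈ M.SU → ⁅g, a⁆ ∈ P)
    (h2 : ∀ g ∈ V, g ∈ M.SU → ∀ x ∈ P, g * x * g⁻¹ ∈ P) :
    ∀ᶠ g in 𝓝 (1 : unitary E), g ∈ M.SU → g ∈ P := by
  have b1 : ∀ y ∈ Tn F M.SU, y - a * y * star (a : E) ∈ Tn F (P ⊓ M.SU) := by
    rintro y hy
    have hs : star y = -y := M.Tn_le _ hy
    obtain ⟨γ, d, c2, c3⟩ := hy
    refine ⟨fun t : F => γ t * a * star (γ t) * star (a : E), ?_, by simp [c2, a.2.2], ?_⟩
    · have := ((d.mul_const (a : E)).fun_mul (M.deriv_star d)).mul_const (star (a : E))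
      convert this using 1
      simp [c2, hs, add_mul, mul_assoc, a.2.2, sub_eq_add_neg]
    · filter_upwards [ev_of_path hV d.hasDerivAt.continuousAt c2 c3] with t ⟨g, hg, hgV, e⟩
      exact ⟨_, ⟨h1 g hgV hg, M.comm_mem_SU _ _⟩, by rw [← e]; rfl⟩
  have b3 : ∀ X ∈ Submodule.span Ω (M.f '' Tn F M.SU), X - M.f a * X * M.f (star (a : E)) ∈
      Submodule.span Ω (M.f '' Tn F (P ⊓ M.SU)) := by
    intro X hX
    induction hX using Submodule.span_induction with
    | mem x hx =>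
      obtain ⟨y, hy, rfl⟩ := hx
      exact Submodule.subset_span ⟨_, b1 y hy, by simp⟩
    | zero => simp
    | add a b _ _ ha hb =>
      convert Submodule.add_mem _ ha hb using 1
      noncomm_ring
    | smul c a _ ha =>
      convert Submodule.smul_mem _ c ha using 1
      rw [mul_smul_comm, smul_mul_assoc, smul_sub]
  obtain ⟨e, he, htr⟩ := M.exists_trace (by omega)
  exact (M.open_of_tan (P := P ⊓ M.SU) inf_le_right he htr (M.decomp_of_traceless (M.Tn_le _) he htr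
    fun Y hY => M.traceless_two hn hV (fun g hgV hg z hz => Tn_conj (fun x hx => Subgroup.mem_inf.2
      ⟨h2 g hgV hg x hx.1, (inferInstance : M.SU.Normal).conj_mem x hx.2 g⟩) hz)
      (M.exists_noncentral ha b3) hY)).mono fun g hg hg' => (hg hg').1

include M in
/-- An element with bounded conjugates is central if there are unipotent elements. -/
theorem central_two (hn : 2 ≤ n) (hx : ∃ x : E, Nil x ∧ x ≠ 0) {h : E} {C : ℝ}
    (hC : ∀ t ∈ Gp E, ‖(t : E) * h * star (t : E)‖ ≤ C) (z : E) : h * z = z * h := by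
  have a1 : ∀ x, Nil x → h * x = x * h := fun x hx => by
    have : x * h - h * x = 0 := by
      refine lin_quad (F := F) (v := -(x * h * x)) (C := C + ‖h‖) fun a => ?_
      have := hC _ (un_mem (M.nil_smul hx a))
      rw [un_val, star_add, star_one, (M.nil_smul hx a).1] at this
      have e : a • (x * h - h * x) + (a * a) • -(x * h * x) =
          (1 + a • x) * h * (1 + -(a • x)) - h := by
        simp only [mul_add, add_mul, mul_neg, smul_mul_assoc, mul_smul_comm, one_mul, mul_one]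
        module
      rw [e]
      exact (norm_sub_le _ _).trans (by linarith)
    exact (sub_eq_zero.1 this).symm
  let W : Submodule F E := Submodule.span F {x | Nil x}
  have a2 : ∀ g : unitary E, ∀ z ∈ W, (g : E) * z * star (g : E) ∈ W := fun g z hz => by
    induction hz using Submodule.span_induction with
    | mem x hx => exact Submodule.subset_span (hx.conj g)
    | zero => simp
    | add a b _ _ ha hb => rw [mul_add, add_mul]; exact W.add_mem ha hb
    | smul c a _ ha => rw [mul_smul_comm, smul_mul_assoc]; exact W.smul_mem _ ha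
  have a4 : ∃ Z ∈ Submodule.span Ω (M.f '' W), ∃ Y, Z * Y ≠ Y * Z := by
    obtain ⟨x, hx, hx0⟩ := hx
    refine ⟨M.f x, Submodule.subset_span ⟨x, Submodule.subset_span hx, rfl⟩, ?_⟩
    by_contra hc
    push Not at hc
    obtain ⟨c, hc'⟩ := mem_range_scalar_iff_commute_single'.2 fun p q => (hc (single p q 1)).symm
    have e : scalar (Fin n) (c * c) = 0 := by rw [map_mul, hc', ← map_mul, hx.2, map_zero]
    have e2 : c = 0 := by simpa using congrFun (congrFun e ⟨0, by omega⟩) ⟨0, by omega⟩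
    exact hx0 (M.inj_Sk hx.1 (by rw [← hc', e2, map_zero]))
  have a5 : ∀ h : E, (∀ x, Nil x → h * x = x * h) → ∀ Y, M.f h * Y = Y * M.f h := by
    intro h a1
    refine scalar_of_comm fun i j hij => ?_
    have := M.traceless_two hn univ_mem (fun g _ _ => a2 g) a4 (Y := single i j 1)
      (trace_single_eq_of_ne _ _ _ hij)
    generalize single i j (1 : Ω) = X at this
    induction this using Submodule.span_induction with
    | mem x hx =>
      obtain ⟨y, hy, rfl⟩ := hx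
      rw [← map_mul, ← map_mul]
      congr 1
      induction hy using Submodule.span_induction with
      | mem x hx => exact a1 x hx
      | zero => simp
      | add a b _ _ ha hb => rw [mul_add, add_mul, ha, hb]
      | smul c a _ ha => rw [mul_smul_comm, smul_mul_assoc, ha]
    | zero => simp
    | add a b _ _ ha hb => rw [mul_add, add_mul, ha, hb]
    | smul c a _ ha => rw [mul_smul_comm, smul_mul_assoc, ha]
  refine M.central_of (a5 h a1) (a5 _ fun x hx => ?_) z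
  have := congrArg star (a1 x hx)
  rw [star_mul, star_mul, hx.1, neg_mul, mul_neg, neg_inj] at this
  exact this.symm

omit [CompleteSpace F] in
theorem noncomm_two (hn : 2 ≤ n) : ∃ x ∈ M.Sk, ∃ y ∈ M.Sk, x * y ≠ y * x := by
  by_contra hc
  push Not at hc
  have h : ∀ X Y : Matrix (Fin n) (Fin n) Ω, X * Y = Y * X :=
    M.ind_Sk (fun x hx => M.ind_Sk (fun y hy => by rw [← map_mul, hc x hx y hy, map_mul])
      (fun X Y a b => by rw [mul_add, add_mul, a, b])
      fun c X a => by rw [mul_smul_comm, smul_mul_assoc, a])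
      (fun X Y a b Z => by rw [mul_add, add_mul, a, b])
      fun c X a Z => by rw [mul_smul_comm, smul_mul_assoc, a]
  have h01 : (⟨0, by omega⟩ : Fin n) ≠ ⟨1, by omega⟩ := by simp
  have := h (Matrix.single ⟨0, by omega⟩ ⟨0, by omega⟩ 1)
    (Matrix.single ⟨0, by omega⟩ ⟨1, by omega⟩ 1)
  rw [Matrix.single_mul_single_same, Matrix.single_mul_single_of_ne _ _ _ _ h01.symm] at this
  simpa using congrFun (congrFun this ⟨0, by omega⟩) ⟨1, by omega⟩

end complete

end Mdl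

theorem Mdl.nc_two {F E Ω : Type*} [NontriviallyNormedField F] [NormedRing E] [StarRing E]
    [NormedAlgebra F E] [Field Ω] [Algebra F Ω] {n : ℕ} (M : Mdl F E Ω n) [CompleteSpace F]
    (hn : 2 ≤ n) {V : Set (unitary E)} (hV : V ∈ 𝓝 1) :
    ∃ a ∈ V, ∃ x, (a : E) * x ≠ x * a := by
  by_contra hc
  push Not at hc
  obtain ⟨x, hx, y, -, h⟩ := M.noncomm_two hn
  have d := M.deriv_cay_smul x
  refine h (sub_eq_zero.1 (M.deriv_mem
    (W := LinearMap.ker (LinearMap.mulRight F y - LinearMap.mulLeft F y)) d ?_))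
  filter_upwards [Mdl.ev_of_path (P := ⊤) hV d.hasDerivAt.continuousAt (by simp [M.cay_zero])
    ((M.ev_cay_smul hx).mono fun t ht => ⟨⟨_, ht⟩, trivial, rfl⟩)] with t ⟨g, _, hg, e⟩
  rw [← e]
  exact sub_eq_zero.2 (hc g hg y)

theorem Mdl.exit_two {F E Ω : Type*} [NontriviallyNormedField F] [NormedRing E] [StarRing E]
    [NormedAlgebra F E] [Field Ω] [Algebra F Ω] {n : ℕ} (M : Mdl F E Ω n) [ProperSpace F]
    [ContinuousStar E] (hn : 2 ≤ n) (hx : ∃ x : E, Nil x ∧ x ≠ 0) :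
    ∃ δ : ℝ, 0 < δ ∧ ∃ Ξ : Set (unitary E), IsCompact Ξ ∧ (∀ ξ ∈ Ξ, ∃ z, (ξ : E) * z ≠ z * ξ) ∧
      ∀ h ∈ M.SU, h ≠ 1 → ‖(h : E) - 1‖ < δ → ∃ t ∈ Gp E, t * h * t⁻¹ ∈ Ξ := by
  have hZ := ((M.finite_centre (by omega)).sdiff (t := {1})).image
    fun g : unitary E => ‖(g : E) - 1‖
  obtain ⟨δ, hδ, h1⟩ := Metric.nhds_basis_closedBall.mem_iff.1
    (hZ.isClosed.isOpen_compl.mem_nhds (x := 0) (by
      rintro ⟨g, hg, e⟩
      exact hg.2 (Subtype.ext (sub_eq_zero.1 (norm_eq_zero.1 e)))))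
  have h2 : ∀ g ∈ M.SU, (∀ z, (g : E) * z = z * g) → ‖(g : E) - 1‖ ≤ δ → g = 1 :=
    fun g a b c => by
      by_contra e
      exact h1 (by simpa using c) ⟨g, ⟨⟨a, b⟩, e⟩, rfl⟩
  obtain ⟨T, t1, t2, C, c1, -, c2⟩ := M.cocompact (by omega)
  have c3 : Continuous fun g : unitary E => ‖(g : E) - 1‖ := by fun_prop
  have hB : IsCompact {g : unitary E | ‖(g : E) - 1‖ ≤ δ} :=
    (M.isCompact_ball (δ + ‖(1 : E)‖)).of_isClosed_subset (isClosed_le c3 continuous_const)
      fun g hg => (norm_le_norm_sub_add _ _).trans (add_le_add_left hg _)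
  refine ⟨δ, hδ, ((⋃ s ∈ T ∪ T⁻¹, (fun u => s * u * s⁻¹) '' {g | ‖(g : E) - 1‖ ≤ δ}) ∩
    {g | δ ≤ ‖(g : E) - 1‖}) ∩ M.SU, (((t1.union t1.inv).isCompact_biUnion fun s _ =>
      hB.image (by fun_prop)).inter_right (isClosed_le continuous_const c3)).inter_right
        M.isClosed_SU, ?_, fun h a b c => ?_⟩
  · rintro ξ ⟨⟨a, b⟩, c⟩
    obtain ⟨s, -, u, hu, e⟩ := Set.mem_iUnion₂.1 a
    by_contra hc
    push Not at hc
    have e1 : u = ξ := by
      rw [← conj_central (c := s⁻¹) hc, ← e]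
      group
    rw [h2 ξ c hc (e1 ▸ hu)] at b
    exact hδ.not_ge (by simpa using b)
  by_contra hc
  push Not at hc
  have h3 : ∀ s ∈ T ∪ T⁻¹, ∀ t ∈ Subgroup.closure T, ‖((t * h * t⁻¹ : unitary E) : E) - 1‖ < δ →
      ‖((s * t * h * (s * t)⁻¹ : unitary E) : E) - 1‖ < δ := fun s hs t ht e => by
    by_contra e'
    refine hc (s * t) (mul_mem (hs.elim (fun a => t2 a) fun a => by simpa using inv_mem (t2 a))
      ((Subgroup.closure_le _).2 t2 ht)) ⟨⟨Set.mem_iUnion₂.2 ⟨s, hs, _, e.le, by group⟩,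
        not_lt.1 e'⟩, Subgroup.Normal.conj_mem inferInstance h a _⟩
  have h4 : ∀ t ∈ Subgroup.closure T, ‖((t * h * t⁻¹ : unitary E) : E) - 1‖ < δ := fun t ht => by
    induction ht using Subgroup.closure_induction_left with
    | one => simpa using c
    | mul_left s hs t ht ih => exact h3 s (Or.inl hs) t ht ih
    | inv_mul_cancel s hs t ht ih => exact h3 s⁻¹ (Or.inr (by simpa using hs)) t ht ih
  obtain ⟨R, hR⟩ := ((c1.prod hB).image (f := fun z : unitary E × unitary E =>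
    ‖((z.1⁻¹ * z.2 * z.1 : unitary E) : E)‖) (by fun_prop)).bddAbove
  refine b (h2 h a (M.central_two hn hx (C := R) fun g hg => ?_) c.le)
  obtain ⟨t, ht, e⟩ := c2 _ (inv_mem (M.Gp_le_SU hg))
  refine hR ⟨(_, _), ⟨e, (h4 t ht).le⟩, ?_⟩
  exact congrArg (fun u : unitary E => ‖(u : E)‖) (show _ = g * h * g⁻¹ by group)

end Vale.Agent.P011NC
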