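import Mathlib

/-! The unit group of a simple artinian ring modulo the unipotent elements of square zero. -/

namespace Vale.Agent.P011UE0

open Module LinearMap
open scoped commutatorElement

/-- The group generated by the elements `1 + x` with `x * x = 0`. -/
def Tv (R : Type*) [Ring R] : Subgroup Rˣ :=
  Subgroup.closure {u | ∃ x : R, x * x = 0 ∧ (u : R) = 1 + x}

instance (R : Type*) [Ring R] : (Tv R).Normal := by
  refine ⟨fun a ha g => ?_⟩
  have h : (Tv R).map (MulAut.conj g).toMonoidHom ≤ Tv R := by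
    rw [Tv, MonoidHom.map_closure]
    refine Subgroup.closure_mono ?_
    rintro _ ⟨u, ⟨x, h1, h2⟩, rfl⟩
    refine ⟨g * x * (g⁻¹ : Rˣ), ?_, ?_⟩
    · rw [mul_assoc, mul_assoc, mul_assoc, Units.inv_mul_cancel_left, ← mul_assoc x, h1,
        zero_mul, mul_zero]
    · simp [h2, mul_add, add_mul]
  exact h ⟨a, ha, rfl⟩

theorem Tv_map {R S : Type*} [Ring R] [Ring S] (e : R →+* S) {u : Rˣ} (h : u ∈ Tv R) :
    Units.map (e : R →* S) u ∈ Tv S := by
  refine (Subgroup.closure_le ((Tv S).comap (Units.map (e : R →* S)))).2 ?_ h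
  rintro u ⟨x, h1, h2⟩
  exact Subgroup.subset_closure ⟨e x, by rw [← map_mul, h1, map_zero], by simp [h2]⟩

section vec

variable {K V : Type*} [DivisionRing K] [AddCommGroup V] [Module K V]

theorem exists_tv (f : Dual K V) {v : V} (h : f v = 0) :
    ∃ t ∈ Tv (End K V), ∀ x, (t : End K V) x = x + f x • v := by
  have h1 : f.smulRight v * f.smulRight v = (0 : End K V) := by
    ext x
    simp [h]
  refine ⟨⟨1 + f.smulRight v, 1 - f.smulRight v, ?_, ?_⟩,
    Subgroup.subset_closure ⟨_, h1, rfl⟩, fun x => by simp⟩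
  · rw [add_mul, mul_sub, mul_sub, h1]
    simp
  · rw [sub_mul, mul_add, mul_add, h1]
    simp

theorem exists_dual {W : Submodule K V} {x : V} (h : x ∉ W) :
    ∃ f : Dual K V, f x = 1 ∧ ∀ w ∈ W, f w = 0 := by
  obtain ⟨f, h1, h2⟩ := W.exists_dual_map_eq_bot_of_notMem h inferInstance
  refine ⟨(f.smulRight (f x)⁻¹ : V →ₗ[K] K), by simp [h1], fun w hw => ?_⟩
  have : f w = 0 := (Submodule.eq_bot_iff _).1 h2 _ ⟨w, hw, rfl⟩
  simp [this]

theorem move1 {W : Submodule K V} {v w : V} (h : w ∉ W ⊔ K ∙ (v - w)) :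
    ∃ t ∈ Tv (End K V), (∀ x ∈ W, (t : End K V) x = x) ∧ (t : End K V) w = v := by
  obtain ⟨f, h1, h2⟩ := exists_dual h
  obtain ⟨t, ht, e⟩ := exists_tv f (h2 _ (Submodule.mem_sup_right
    (Submodule.mem_span_singleton_self _)))
  exact ⟨t, ht, fun x hx => by simp [e, h2 x (Submodule.mem_sup_left hx)], by simp [e, h1]⟩

theorem move2 {W : Submodule K V} {v w : V} (hv : v ∉ W) (h : w ∉ W ⊔ K ∙ v) :
    ∃ t ∈ Tv (End K V), (∀ x ∈ W, (t : End K V) x = x) ∧ (t : End K V) w = v := by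
  refine move1 fun e => ?_
  obtain ⟨a, ha, _, hb, e⟩ := Submodule.mem_sup.1 e
  obtain ⟨c, rfl⟩ := Submodule.mem_span_singleton.1 hb
  by_cases hc : 1 + c = 0
  · have h1 : c = -1 := eq_neg_of_add_eq_zero_right hc
    rw [h1, neg_smul, one_smul, neg_sub, ← add_sub_assoc, sub_eq_iff_eq_add, add_comm,
      add_right_inj] at e
    exact hv (e ▸ ha)
  · have h1 : (1 + c) • w = a + c • v := by
      rw [add_smul, one_smul]
      nth_rw 1 [← e]
      rw [smul_sub]
      abel
    refine h ((Submodule.smul_mem_iff _ hc).1 (h1 ▸ ?_))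
    exact Submodule.add_mem_sup ha (Submodule.smul_mem _ _ (Submodule.mem_span_singleton_self _))

/-- Transitivity outside a subspace of codimension at least two. -/
theorem move {W : Submodule K V} {v w : V} (hv : v ∉ W) (hw : w ∉ W) (h : W ⊔ K ∙ v ≠ ⊤) :
    ∃ t ∈ Tv (End K V), (∀ x ∈ W, (t : End K V) x = x) ∧ (t : End K V) w = v := by
  by_cases e : w ∈ W ⊔ K ∙ v
  swap
  · exact move2 hv e
  obtain ⟨z, -, hz⟩ := SetLike.exists_of_lt h.lt_top
  obtain ⟨t, ht, a1, a2⟩ := move2 hv hz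
  obtain ⟨s, hs, b1, b2⟩ := move2 hw (w := z) fun e' => hz (sup_le le_sup_left
    ((Submodule.span_singleton_le_iff_mem _ _).2 e) e')
  have h1 : ∀ x y, (s : End K V) x = y → ((s⁻¹ : (End K V)ˣ) : End K V) y = x := by
    rintro x _ rfl
    rw [← End.mul_apply, Units.inv_mul, End.one_apply]
  exact ⟨t * s⁻¹, mul_mem ht (inv_mem hs), fun x hx => by
    rw [Units.val_mul, End.mul_apply, h1 x x (b1 x hx), a1 x hx], by
      rw [Units.val_mul, End.mul_apply, h1 _ _ b2, a2]⟩

variable [FiniteDimensional K V]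

/-- Every automorphism is congruent to a dilatation. -/
theorem exists_dil (c : ℕ) : ∀ (W : Submodule K V) (u : (End K V)ˣ), finrank K W + c = finrank K V →
    (∀ x ∈ W, (u : End K V) x = x) → ∃ t ∈ Tv (End K V), ∃ (f : Dual K V) (v : V),
      ∀ x, ((t * u : (End K V)ˣ) : End K V) x = x + f x • v := by
  induction c with
  | zero =>
    intro W u h hu
    rw [Submodule.eq_top_of_finrank_eq h] at hu
    exact ⟨1, one_mem _, 0, 0, fun x => by simp [hu x trivial]⟩
  | succ c ih =>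
    intro W u h hu
    obtain ⟨v, -, hv⟩ := SetLike.exists_of_lt (p := W) (q := ⊤) (lt_top_iff_ne_top.2 fun e => by
      rw [e, finrank_top] at h
      omega)
    by_cases e : W ⊔ K ∙ v = ⊤
    · obtain ⟨f, h1, h2⟩ := exists_dual hv
      refine ⟨1, one_mem _, f, (u : End K V) v - v, fun x => ?_⟩
      obtain ⟨a, ha, _, hb, rfl⟩ := Submodule.mem_sup.1 (e.ge (Submodule.mem_top (x := x)))
      obtain ⟨c, rfl⟩ := Submodule.mem_span_singleton.1 hb
      simp [hu a ha, h1, h2 a ha, smul_sub]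
    have h1 : (u : End K V) v ∉ W := fun e => hv (by
      have := ((End.isUnit_iff _).1 u.isUnit).1 (hu _ e)
      rwa [this] at e)
    obtain ⟨t, ht, a1, a2⟩ := move hv h1 e
    obtain ⟨s, hs, r⟩ := ih (W ⊔ K ∙ v) (t * u) (by
      rw [Submodule.finrank_sup_span_singleton hv]
      omega) fun x hx => by
      obtain ⟨a, ha, _, hb, rfl⟩ := Submodule.mem_sup.1 hx
      obtain ⟨c, rfl⟩ := Submodule.mem_span_singleton.1 hb
      simp [hu a ha, a1 a ha, a2]
    exact ⟨s * t, mul_mem hs ht, by rwa [mul_assoc]⟩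

theorem exists_dil' (u : (End K V)ˣ) : ∃ t ∈ Tv (End K V), ∃ (f : Dual K V) (v : V),
    ∀ x, ((t * u : (End K V)ˣ) : End K V) x = x + f x • v :=
  exists_dil (finrank K V) ⊥ u (by simp) fun x hx => by simp [(Submodule.mem_bot K).1 hx]

omit [FiniteDimensional K V] in
theorem mem_of_dil {u : (End K V)ˣ} {f : Dual K V} {v : V} (h : f v = 0)
    (e : ∀ x, (u : End K V) x = x + f x • v) : u ∈ Tv (End K V) := by
  obtain ⟨t, ht, e'⟩ := exists_tv f h
  rwa [show u = t from Units.ext (LinearMap.ext fun x => (e x).trans (e' x).symm)]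

omit [FiniteDimensional K V] in
theorem dil_conj (t : (End K V)ˣ) {u : (End K V)ˣ} {f : Dual K V} {v : V}
    (e : ∀ x, (u : End K V) x = x + f x • v) (x : V) :
    ((t * u * t⁻¹ : (End K V)ˣ) : End K V) x =
      x + (f ∘ₗ ((t⁻¹ : (End K V)ˣ) : End K V)) x • (t : End K V) v := by
  rw [Units.val_mul, Units.val_mul, End.mul_apply, End.mul_apply, e, map_add, map_smul,
    ← End.mul_apply, Units.mul_inv, End.one_apply, comp_apply]

theorem comm_End (h : 2 ≤ finrank K V) (a b : (End K V)ˣ) : ⁅a, b⁆ ∈ Tv (End K V) := by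
  let p := QuotientGroup.mk' (Tv (End K V))
  have hp : ∀ {t}, t ∈ Tv (End K V) ↔ p t = 1 := (QuotientGroup.eq_one_iff _).symm
  rw [hp, map_commutatorElement, commutatorElement_eq_one_iff_mul_comm]
  obtain ⟨s, hs, f, v, e1⟩ := exists_dil' a
  obtain ⟨t, ht, g, w, e2⟩ := exists_dil' b
  rw [show p a = p (s * a) by rw [map_mul, hp.1 hs, one_mul],
    show p b = p (t * b) by rw [map_mul, hp.1 ht, one_mul]]
  generalize s * a = a at e1
  generalize t * b = b at e2
  by_cases h1 : f v = 0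
  · rw [hp.1 (mem_of_dil h1 e1), one_mul, mul_one]
  by_cases h2 : g w = 0
  · rw [hp.1 (mem_of_dil h2 e2), one_mul, mul_one]
  have h3 : ∀ z : V, (⊥ : Submodule K V) ⊔ K ∙ z ≠ ⊤ := fun z e => by
    have := (finrank_span_le_card (R := K) ({z} : Set V)).trans_eq (by simp : _ = 1)
    rw [bot_sup_eq] at e
    rw [e, finrank_top] at this
    omega
  obtain ⟨z, -, hz⟩ := SetLike.exists_of_lt (h3 v).lt_top
  rw [bot_sup_eq] at hz
  obtain ⟨t, ht, -, a2⟩ := move (W := (⊥ : Submodule K V)) (v := z - (f z * (f v)⁻¹) • v) (w := w)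
    (fun e => hz (by
      rw [sub_eq_zero.1 ((Submodule.mem_bot K).1 e)]
      exact Submodule.smul_mem _ _ (Submodule.mem_span_singleton_self _)))
    (fun e => h2 (by rw [(Submodule.mem_bot K).1 e, map_zero])) (h3 _)
  have e3 := dil_conj t e2
  have a3 : f ((t : End K V) w) = 0 := by simp [a2, h1]
  have a4 : (g ∘ₗ ((t⁻¹ : (End K V)ˣ) : End K V)) ((t : End K V) w) ≠ 0 := by
    rwa [comp_apply, ← End.mul_apply, Units.inv_mul, End.one_apply]
  rw [show p b = p (t * b * t⁻¹) by simp [hp.1 ht]]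
  generalize t * b * t⁻¹ = b at e3
  generalize g ∘ₗ ((t⁻¹ : (End K V)ˣ) : End K V) = g at e3 a4
  generalize (t : End K V) w = w at e3 a3 a4
  obtain ⟨r, hr, e4⟩ := exists_tv f (v := -((f v)⁻¹ * g v * (g w)⁻¹) • w) (by simp [a3])
  have e5 := dil_conj r⁻¹ e3
  have a5 : ((r⁻¹ : (End K V)ˣ) : End K V) w = w := by
    nth_rw 1 [show w = (r : End K V) w by simp [e4, a3]]
    rw [← End.mul_apply, Units.inv_mul, End.one_apply]
  have a6 : (g ∘ₗ ((r⁻¹⁻¹ : (End K V)ˣ) : End K V)) v = 0 := by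
    simp [e4, h1, a4]
  rw [show p b = p (r⁻¹ * b * r⁻¹⁻¹) by simp [hp.1 hr], ← map_mul, ← map_mul]
  rw [a5] at e5
  generalize r⁻¹ * b * r⁻¹⁻¹ = b at e5
  generalize g ∘ₗ ((r⁻¹⁻¹ : (End K V)ˣ) : End K V) = g at e5 a6
  congr 1
  ext x
  simp [e1, e5, a3, a6, add_right_comm]

end vec

/-- **The commutators are products of unipotent elements.** -/
theorem comm_Tv {R : Type*} [Ring R] [IsSimpleRing R] [IsArtinianRing R]
    (h : ∃ x : R, x ≠ 0 ∧ ¬IsUnit x) (a b : Rˣ) : ⁅a, b⁆ ∈ Tv R := by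
  obtain ⟨m, _, K, _, ⟨e⟩⟩ := IsSimpleRing.exists_ringEquiv_matrix_divisionRing R
  let e' : R ≃+* End Kᵐᵒᵖ (Fin m → Kᵐᵒᵖ) := e.trans (((RingEquiv.opOp K).trans
    (RingEquiv.moduleEndSelf Kᵐᵒᵖ)).mapMatrix.trans (endVecRingEquivMatrixEnd _ _ _).symm)
  obtain ⟨x, h1, h2⟩ := h
  have h3 : 2 ≤ finrank Kᵐᵒᵖ (Fin m → Kᵐᵒᵖ) := by
    have a1 : LinearMap.ker (e' x) ≠ ⊥ := fun a => h2 (by
      simpa using ((End.isUnit_iff _).2 ⟨ker_eq_bot.1 a,
        LinearMap.injective_iff_surjective.1 (ker_eq_bot.1 a)⟩).map e'.symm)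
    have a2 : LinearMap.ker (e' x) ≠ ⊤ := fun a => h1 (by simpa using ker_eq_top.1 a)
    have a3 := Submodule.finrank_lt a2
    have a4 := Submodule.finrank_eq_zero.not.2 a1
    omega
  have h4 := Tv_map (e'.symm : _ →+* R) (comm_End h3 (Units.map (e' : R →* _) a)
    (Units.map (e' : R →* _) b))
  rw [map_commutatorElement] at h4
  convert h4 <;> ext <;> simp

/-- **The special linear group is generated by unipotent elements.** -/
theorem det_Tv {F : Type*} [Field F] {n : ℕ} (u : (Matrix (Fin n) (Fin n) F)ˣ)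
    (h : (u : Matrix (Fin n) (Fin n) F).det = 1) : u ∈ Tv (Matrix (Fin n) (Fin n) F) := by
  let e : Matrix (Fin n) (Fin n) F ≃ₐ[F] End F (Fin n → F) := Matrix.toLinAlgEquiv'
  obtain ⟨t, ht, f, v, e1⟩ := exists_dil' (Units.map (e : _ →* End F (Fin n → F)) u)
  have h1 : ∀ t ∈ Tv (End F (Fin n → F)), LinearMap.det (t : End F (Fin n → F)) = 1 := by
    intro t ht
    induction ht using Subgroup.closure_induction with
    | mem t ht =>
      obtain ⟨x, h1, h2⟩ := ht
      have h3 : IsNilpotent (LinearMap.toMatrix' x) := ⟨2, by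
        rw [sq, ← LinearMap.toMatrix'_mul, h1, map_zero]⟩
      rw [h2, ← LinearMap.det_toMatrix', map_add, LinearMap.toMatrix'_one]
      have h6 := Matrix.eval_charpoly (LinearMap.toMatrix' (-x)) 1
      have h7 := (Matrix.isNilpotent_charpoly_sub_pow_of_isNilpotent h3.neg).eq_zero
      rw [sub_eq_zero] at h7
      rw [map_neg, h7] at h6
      simpa using h6.symm
    | one => simp
    | mul a b _ _ ha hb => simp [ha, hb]
    | inv a _ ha =>
      have := congrArg LinearMap.det a.inv_mul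
      rwa [map_mul, ha, mul_one, map_one] at this
  have h2 : ((t * Units.map (e : _ →* End F (Fin n → F)) u : (End F (Fin n → F))ˣ) :
      End F (Fin n → F)) = transvection f v := LinearMap.ext e1
  have h3 := congrArg LinearMap.det h2
  rw [transvection.det, Units.val_mul, map_mul, h1 t ht, one_mul] at h3
  have h4 : f v = 0 := by
    rw [← add_eq_left (a := 1), ← h3, ← h]
    exact LinearMap.det_toLin' _
  have h5 := Tv_map (e.symm : _ →+* Matrix (Fin n) (Fin n) F)
    ((Subgroup.mul_mem_cancel_left _ ht).1 (mem_of_dil h4 e1))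
  convert h5
  ext1
  simp

end Vale.Agent.P011UE0
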