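import Vale.Agent.P011UE0.Dieu
import Vale.Agent.P011UE0.N2
import Vale.Agent.P011.Even.LocDiv

/-! The local groups are solvable modulo the open subgroups which contain the unipotent elements. -/

namespace Vale.Agent.P011UE0

open Module Topology Filter Vale.Agent.P011NC Vale.Agent.P011.Even
open scoped commutatorElement

theorem ds_small {R : Type*} [NormedDivisionRing R] [IsUltrametricDist R] {r : ℝ} (h0 : 0 < r)
    (h1 : r < 1) (hr : ∀ x y : R, ‖x‖ = 1 → ‖y‖ = 1 → ‖x * y - y * x‖ ≤ r) (m : ℕ) :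
    ∀ u ∈ derivedSeries Rˣ (m + 1), ‖(u : R)‖ = 1 ∧ ‖(u : R) - 1‖ ≤ r ^ m := by
  have a1 : ∀ a : Rˣ, ‖((a⁻¹ : Rˣ) : R)‖ = ‖(a : R)‖⁻¹ := fun a => by simp
  have a2 : ∀ (t : ℝ) (H : Subgroup Rˣ), 0 ≤ t → (∀ a ∈ H, ∀ b ∈ H, ‖((⁅a, b⁆ : Rˣ) : R) - 1‖ ≤ t) →
      ∀ u ∈ ⁅H, H⁆, ‖(u : R)‖ = 1 ∧ ‖(u : R) - 1‖ ≤ t := fun t H ht h u hu => by
    rw [Subgroup.commutator_def] at hu
    induction hu using Subgroup.closure_induction with
    | mem u hu =>
      obtain ⟨a, ha, b, hb, rfl⟩ := hu
      refine ⟨?_, h a ha b hb⟩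
      have := norm_ne_zero_iff.2 a.ne_zero
      have := norm_ne_zero_iff.2 b.ne_zero
      simp only [commutatorElement_def, Units.val_mul, norm_mul, a1]
      field_simp
    | one => simpa using ht
    | mul a b _ _ ha hb =>
      refine ⟨by rw [Units.val_mul, norm_mul, ha.1, hb.1, one_mul], ?_⟩
      rw [show ((a * b : Rˣ) : R) - 1 = a * (b - 1) + (a - 1) by rw [Units.val_mul]; noncomm_ring]
      exact (IsUltrametricDist.norm_add_le_max _ _).trans
        (max_le (by rw [norm_mul, ha.1, one_mul]; exact hb.2) ha.2)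
    | inv a _ ha =>
      refine ⟨by rw [a1, ha.1, inv_one], ?_⟩
      rw [show ((a⁻¹ : Rˣ) : R) - 1 = -((a⁻¹ : Rˣ) * (a - 1)) by simp [mul_sub], norm_neg, norm_mul,
        a1, ha.1, inv_one, one_mul]
      exact ha.2
  have a3 : ∀ a b : Rˣ, ‖(a : R)‖ = 1 → ‖(b : R)‖ = 1 →
      ‖((⁅a, b⁆ : Rˣ) : R) - 1‖ = ‖(a : R) * b - b * a‖ := fun a b ha hb => by
    rw [show (a : R) * b - b * a = (((⁅a, b⁆ : Rˣ) : R) - 1) * (b * a) by
      simp [commutatorElement_def, sub_mul, mul_assoc], norm_mul, norm_mul, ha, hb, mul_one, mul_one]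
  induction m with
  | zero =>
    refine a2 _ ⊤ (by positivity) fun a _ b _ => ?_
    have e : ‖((⁅a, b⁆ : Rˣ) : R)‖ = 1 := by
      have := norm_ne_zero_iff.2 a.ne_zero
      have := norm_ne_zero_iff.2 b.ne_zero
      simp only [commutatorElement_def, Units.val_mul, norm_mul, a1]
      field_simp
    rw [sub_eq_add_neg]
    exact (IsUltrametricDist.norm_add_le_max _ _).trans (by simp [e])
  | succ m ih =>
    refine a2 _ _ (by positivity) fun a ha b hb => ?_
    rw [a3 a b (ih a ha).1 (ih b hb).1]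
    rcases m with _ | m
    · simpa using hr _ _ (ih a ha).1 (ih b hb).1
    have e : r ^ (m + 1) * r ^ (m + 1) ≤ r ^ (m + 1 + 1) := by
      rw [← pow_add]
      exact pow_le_pow_of_le_one h0.le h1.le (by omega)
    rw [show (a : R) * b - b * a = (a - 1) * (b - 1) + -((b - 1) * (a - 1)) by noncomm_ring]
    refine (IsUltrametricDist.norm_add_le_max _ _).trans (max_le ?_ ?_)
    · rw [norm_mul]
      exact (mul_le_mul (ih a ha).2 (ih b hb).2 (norm_nonneg _) (by positivity)).trans e
    · rw [norm_neg, norm_mul]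
      exact (mul_le_mul (ih b hb).2 (ih a ha).2 (norm_nonneg _) (by positivity)).trans e

section alg

variable {F E Ω R : Type*} [Field F] [Ring E] [StarRing E] [Algebra F E] [Field Ω] [Algebra F Ω]
  {n : ℕ} [Ring R] [Algebra F R]

/-- The algebra is the product of `R` and of the opposite algebra, with the projection `π`. -/
structure Pj (M : Mdl F E Ω n) (π : E →ₐ[F] R) : Prop where
  surj : Function.Surjective π
  ker : ∀ x, π x = 0 ↔ M.om * x = 0
  om : M.om * star M.om = 0

namespace Pj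

variable {M : Mdl F E Ω n} {π : E →ₐ[F] R} (h : Pj M π)
include h

theorem som : π (star M.om) = 0 := (h.ker _).2 h.om

theorem one : π M.om = 1 := by
  rw [← map_one π, ← M.om_add, map_add, h.som, add_zero]

theorem ext {x y : E} (h1 : π x = π y) (h2 : π (star x) = π (star y)) : x = y := by
  rw [← sub_eq_zero, ← map_sub, h.ker] at h1 h2
  rw [← star_sub] at h2
  have h3 := congrArg star h2
  rw [star_mul, star_star, star_zero] at h3
  rw [← sub_eq_zero, ← mul_one (x - y), ← M.om_add, mul_add, h3, ← M.om_comm, h1, add_zero]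

theorem fst (a b : E) : π (M.om * a + star (M.om * b)) = π a := by
  simp [h.one, h.som]

theorem snd (a b : E) : π (star (M.om * a + star (M.om * b))) = π b := by
  simp [h.one, h.som]

theorem ex (y z : R) : ∃ x, π x = y ∧ π (star x) = z := by
  obtain ⟨a, rfl⟩ := h.surj y
  obtain ⟨b, rfl⟩ := h.surj z
  exact ⟨_, h.fst a b, h.snd a b⟩

theorem mem {x : E} (h1 : π x * π (star x) = 1) (h2 : π (star x) * π x = 1) : x ∈ unitary E :=
  ⟨h.ext (by simpa using h2) (by simpa using h2), h.ext (by simpa using h1) (by simpa using h1)⟩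

theorem unit {x : E} (h1 : IsUnit (π x)) (h2 : IsUnit (π (star x))) : IsUnit x := by
  obtain ⟨z, a, b⟩ := h.ex (h1.unit⁻¹ : Rˣ) (h2.unit⁻¹ : Rˣ)
  exact ⟨⟨x, z, h.ext (by simp [a]) (by simp [b]), h.ext (by simp [a]) (by simp [b])⟩, rfl⟩

omit h in
variable (π) in
/-- The map of the unitary group to the units. -/
def u : unitary E →* Rˣ := (Units.map (π : E →* R)).comp Unitary.toUnits

omit h in
theorem u_val (g : unitary E) : (u π g : R) = π g := rfl

omit h in
theorem u_inv (g : unitary E) : (((u π g)⁻¹ : Rˣ) : R) = π (star (g : E)) := rfl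

theorem u_inj : Function.Injective (u π) := fun a b e =>
  Subtype.ext (h.ext (congrArg Units.val e) (by rw [← u_inv, e, u_inv]))

theorem u_surj : Function.Surjective (u π) := fun y => by
  obtain ⟨x, a, b⟩ := h.ex y (y⁻¹ : Rˣ)
  exact ⟨⟨x, h.mem (by simp [a, b]) (by simp [a, b])⟩, Units.ext a⟩

theorem mem_Gp {g : unitary E} (hg : u π g ∈ Tv R) : g ∈ Gp E := by
  have : Tv R ≤ (Gp E).map (u π) := (Subgroup.closure_le _).2 (by
    rintro y ⟨z, h1, h2⟩
    obtain ⟨x, a, b⟩ := h.ex z (-z)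
    have hx : Nil x := ⟨h.ext (by simp [a, b]) (by simp [a, b]),
      h.ext (by simp [a, h1]) (by simp [b, h1])⟩
    exact ⟨un hx, un_mem hx, Units.ext (by simp [u_val, un_val, a, h2])⟩)
  obtain ⟨g', a, b⟩ := this hg
  exact h.u_inj b ▸ a

theorem comm_Gp [IsSimpleRing R] (hx : ∃ x : R, x ≠ 0 ∧ ¬IsUnit x) (a b : unitary E) :
    ⁅a, b⁆ ∈ Gp E := by
  have := M.fd
  have := Module.Finite.of_surjective π.toLinearMap h.surj
  have := IsArtinianRing.of_finite F R
  exact h.mem_Gp (map_commutatorElement (u π) a b ▸ comm_Tv hx _ _)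

end Pj

end alg

variable {F E Ω R : Type} [NontriviallyNormedField F] [ProperSpace F] [NormedRing E] [StarRing E]
  [NormedAlgebra F E] [ContinuousStar E] [Field Ω] [Algebra F Ω] {n : ℕ}

/-- Solvability modulo the open subgroups which contain the unipotent elements. -/
def LS (M : Mdl F E Ω n) : Prop := ∀ B : Subgroup (unitary E),
  (∀ᶠ g in 𝓝 1, g ∈ M.SU → g ∈ B) → Gp E ≤ B → ∃ m, derivedSeries (unitary E) m ≤ B

theorem ls_normed [NormedDivisionRing R] [NormedAlgebra F R] [IsUltrametricDist R]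
    {M : Mdl F E Ω n} {π : E →ₐ[F] R} (h : Pj M π) : LS M := fun B hB _ => by
  have := M.fd
  have := Module.Finite.of_surjective π.toLinearMap h.surj
  have : ProperSpace R := FiniteDimensional.proper F _
  obtain ⟨c, hc0, hc1⟩ := NormedField.exists_norm_lt_one F
  obtain ⟨Q⟩ := LocDiv.exists_frame (E := R) (algebraMap F R c)
    ((_root_.map_ne_zero _).2 (norm_pos_iff.1 hc0)) (by rwa [norm_algebraMap'])
  have h1 := ds_small (R := R) (norm_pos_iff.2 Q.π0) Q.π1 fun x y hx hy => Q.πm _ (by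
    obtain ⟨b, hb⟩ := Q.gen y hy
    have hb1 : ‖Q.ζ ^ b‖ ≤ 1 := by rw [norm_pow, Q.norm_ζ, one_pow]
    have h0 : ‖x - x‖ < 1 := by simp
    exact LocDiv.norm_sub_lt_trans (LocDiv.mul_close hx.le hy.le h0 hb) (LocDiv.norm_sub_lt_trans
      (Q.comm_mod hx b) (norm_sub_rev (y * x) _ ▸ LocDiv.mul_close hb1 hx.le hb h0)))
  obtain ⟨σ, hσ⟩ := π.toLinearMap.exists_rightInverse_of_surjective
    (LinearMap.range_eq_top.2 h.surj)
  have h2 : ∀ y, π (σ y) = y := fun y => congr($hσ y)
  have h3 : ∀ x, x = M.om * σ (π x) + star (M.om * σ (π (star x))) := fun x =>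
    h.ext (by rw [h.fst, h2]) (by rw [h.snd, h2])
  obtain ⟨ε, hε, h4⟩ := Metric.eventually_nhds_iff.1 hB
  have c1 := σ.continuous_of_finiteDimensional
  have c2 : Continuous fun z : R × R => M.om * σ z.1 + star (M.om * σ z.2) := by fun_prop
  obtain ⟨δ, hδ, h5⟩ := Metric.eventually_nhds_iff.1 ((c2.tendsto' (1, 1) 1
    (by simpa using (h3 1).symm)).eventually (Metric.ball_mem_nhds _ hε))
  obtain ⟨m, hm⟩ := exists_pow_lt_of_lt_one hδ Q.π1
  have h6 : ∀ g ∈ derivedSeries (unitary E) (m + 1), ‖π g - 1‖ < δ := fun g hg =>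
    ((h1 m _ (map_derivedSeries_le_derivedSeries (Pj.u π) (m + 1) ⟨g, hg, rfl⟩)).2).trans_lt hm
  have h7 : derivedSeries (unitary E) (m + 1) ≤ M.SU :=
    Subgroup.commutator_le.2 fun a _ b _ => M.comm_mem_SU a b
  refine ⟨m + 1, fun g hg => h4 ?_ (h7 hg)⟩
  have h8 := h5 (y := (π g, π (star (g : E)))) (by
    rw [Prod.dist_eq, dist_eq_norm, dist_eq_norm]
    exact max_lt (h6 g hg) (h6 _ (inv_mem hg)))
  rwa [← h3] at h8

theorem ls_ultra [DivisionRing R] [Algebra F R] [IsUltrametricDist F] {M : Mdl F E Ω n}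
    {π : E →ₐ[F] R} (h : Pj M π) : LS M := by
  have := M.fd
  have := Module.Finite.of_surjective π.toLinearMap h.surj
  let _ : NormedDivisionRing R := LocDiv.ndr F
  let _ : NormedAlgebra F R :=
    { (inferInstance : Algebra F R) with
      norm_smul_le := fun c x => by
        change LocDiv.nm F (c • x) ≤ ‖c‖ * LocDiv.nm F x
        rw [Algebra.smul_def, LocDiv.nm_mul, LocDiv.nm_algebraMap] }
  have : IsUltrametricDist R :=
    IsUltrametricDist.isUltrametricDist_of_forall_norm_add_le_max_norm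
      fun x y => LocDiv.nm_add_le_max F x y
  exact ls_normed h

theorem ls_conn [DivisionRing R] [Algebra F R] [PreconnectedSpace F] {M : Mdl F E Ω n}
    {π : E →ₐ[F] R} (h : Pj M π) : LS M := fun B hB _ => by
  have := M.proper
  have a1 : ∀ a c : unitary E, π a ∈ F ∙ (1 : R) → π c ∉ F ∙ (1 : R) →
      ∀ Z : Set (unitary E), IsClopen Z → (a ∈ Z ↔ c ∈ Z) := fun a c ha hc Z hZ => by
    let x : F → E := fun t => M.om * (a + t • (c - a)) + star (M.om * 1)
    have x1 : ∀ t, IsUnit (x t) := fun t => h.unit (by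
      rw [h.fst, isUnit_iff_ne_zero, map_add, map_smul, map_sub]
      intro e
      have ht : t ≠ 0 := by
        rintro rfl
        exact (Pj.u π a).ne_zero (by rwa [zero_smul, add_zero] at e)
      refine hc ((Submodule.smul_mem_iff _ ht).1 ?_)
      rw [show t • π c = t • π a - π a by
        rw [smul_sub, ← add_sub_assoc, sub_eq_zero] at e
        rw [← e, add_sub_cancel_left]]
      exact sub_mem (Submodule.smul_mem _ _ ha) ha) (by rw [h.snd, map_one]; exact isUnit_one)
    have x2 : Continuous x := by fun_prop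
    have x3 : Continuous fun t => Ring.inverse (x t) := continuous_iff_continuousAt.2 fun t =>
      (NormedRing.inverse_continuousAt (x1 t).unit).comp_of_eq x2.continuousAt rfl
    let γ : F → unitary E := fun t => ⟨M.om * x t + star (M.om * Ring.inverse (x t)), h.mem
      (by rw [h.fst, h.snd, ← map_mul, Ring.mul_inverse_cancel _ (x1 t), map_one])
      (by rw [h.fst, h.snd, ← map_mul, Ring.inverse_mul_cancel _ (x1 t), map_one])⟩
    have g1 : Continuous γ := Continuous.subtype_mk (by fun_prop) _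
    have g2 : ∀ t, (Pj.u π (γ t) : R) = π (a + t • (c - a)) := fun t =>
      (h.fst _ _).trans (h.fst _ _)
    have g3 : γ 0 = a := h.u_inj (Units.ext (by simp [g2, Pj.u_val a]))
    have g4 : γ 1 = c := h.u_inj (Units.ext (by simp [g2, Pj.u_val c]))
    rw [← g3, ← g4]
    rcases isClopen_iff.1 (hZ.preimage g1) with e | e
    · exact iff_of_false (Set.eq_empty_iff_forall_notMem.1 e 0)
        (Set.eq_empty_iff_forall_notMem.1 e 1)
    · exact iff_of_true (Set.eq_univ_iff_forall.1 e 0) (Set.eq_univ_iff_forall.1 e 1)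
  refine ⟨1, Subgroup.commutator_le.2 fun a _ b _ => ?_⟩
  have o1 : IsOpen (B.subgroupOf M.SU : Set M.SU) := Subgroup.isOpen_of_mem_nhds _
    (((continuous_subtype_val.tendsto' (1 : M.SU) 1 rfl).eventually hB).mono fun g a => a g.2)
  have o2 : IsClopen {a : unitary E | ⁅a, b⁆ ∈ B} :=
    IsClopen.preimage (f := fun a : unitary E => (⟨_, M.comm_mem_SU a b⟩ : M.SU))
      ⟨Subgroup.isClosed_of_isOpen _ o1, o1⟩ (Continuous.subtype_mk (by
        simp only [commutatorElement_def]
        fun_prop) _)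
  by_cases e : π a ∈ F ∙ (1 : R)
  · obtain ⟨s, hs⟩ := Submodule.mem_span_singleton.1 e
    rw [commutatorElement_eq_one_iff_mul_comm.2 (h.u_inj (Units.ext (by
      simp [Pj.u_val, ← hs])))]
    exact one_mem _
  · exact (a1 1 a (by simp) e _ o2).1 (by simp)

/-- **Local solvability.** -/
theorem ls [Ring R] [Algebra F R] [IsSimpleRing R] {M : Mdl F E Ω n} {π : E →ₐ[F] R} (h : Pj M π)
    (hF : IsUltrametricDist F ∨ PreconnectedSpace F) : LS M := by
  by_cases hx : ∃ x : R, x ≠ 0 ∧ ¬IsUnit x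
  · exact fun B _ hB => ⟨1, Subgroup.commutator_le.2 fun a _ b _ => hB (h.comm_Gp hx a b)⟩
  push Not at hx
  let _ : DivisionRing R := DivisionRing.ofIsUnitOrEqZero fun x => (em (x = 0)).symm.imp (hx x) id
  rcases hF with hF | hF
  · exact ls_ultra h
  · exact ls_conn h

end Vale.Agent.P011UE0
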