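import Vale.Agent.P011UE0.Lev
import Vale.Agent.P011UE0.Loc

/-! Perfect subgroups of the finite quotients are covered by all the levels. -/

namespace Vale.Agent.P011UE0

open Module Topology Filter Vale.Agent.P011NC
open scoped commutatorElement Pointwise

namespace Adl

variable {k A Ω : Type} [Field k] [Ring A] [StarRing A] [Algebra k A] [Field Ω]
  [Algebra k Ω] {n : ℕ} {P : Type} {F E Om : P → Type} [∀ v, NontriviallyNormedField (F v)]
  [∀ v, NormedRing (E v)] [∀ v, StarRing (E v)] [∀ v, NormedAlgebra (F v) (E v)]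
  [∀ v, Field (Om v)] [∀ v, Algebra (F v) (Om v)] (H : Adl k A Ω n F E Om)
  [∀ v, ContinuousStar (E v)] [∀ v, ProperSpace (F v)] [DecidableEq P]

/-- Some term of the derived series lies in the closure of a normal noncentral subgroup. -/
theorem ds_cp (hL : ∀ w, LS (H.L w)) (U : Finset P) (N : Subgroup H.M.SU) [N.Normal]
    (h : ¬N ≤ Subgroup.center _) : ∃ m, ∀ g : H.M.SU,
      (g : unitary A) ∈ derivedSeries (unitary A) m → H.p U g ∈ H.cp U N := by
  have hb := H.big_of_normal U N h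
  choose m hm using fun w : U => hL w _ (hb.op w) (hb.gp w)
  refine ⟨Finset.univ.sup m, fun g hg => ?_⟩
  rw [H.cp_eq]
  exact Subgroup.pi_mem_of_mulSingle_mem _ fun w => hm w (derivedSeries_antitone _
    (Finset.le_sup (Finset.mem_univ w)) (map_derivedSeries_le_derivedSeries (H.jU w) _
      ⟨g, hg, rfl⟩))

/-- A normal noncentral subgroup which contains the elements close to one at finitely many places
contains a term of the derived series. -/
theorem ds_le (hL : ∀ w, LS (H.L w)) (U : Finset P) (N : Subgroup H.M.SU) [N.Normal]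
    (h : ¬N ≤ Subgroup.center _) {ε : ℝ} (hε : 0 < ε)
    (hN : ∀ g : H.M.SU, (∀ w ∈ U, ‖(H.q w g : E w) - 1‖ < ε) → g ∈ N) : ∃ m, ∀ g : H.M.SU,
      (g : unitary A) ∈ derivedSeries (unitary A) m → g ∈ N := by
  obtain ⟨m, hm⟩ := H.ds_cp hL U N h
  refine ⟨m, fun g hg => ?_⟩
  have a1 : ∀ᶠ x in 𝓝 (H.p U g), ∀ w : U, ‖((x⁻¹ * H.p U g) w : E w) - 1‖ < ε :=
    eventually_all.2 fun w => (Continuous.tendsto' (f := fun x : ∀ v : U, unitary (E v) =>
      ‖((x⁻¹ * H.p U g) w : E w) - 1‖) (by fun_prop) _ 0 (by simp)).eventually_lt_const hε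
  obtain ⟨_, h3, y, hy, rfl⟩ := mem_closure_iff_nhds.1 (hm g hg) _ a1
  rw [Set.mem_ofPred_eq, ← map_inv, ← map_mul] at h3
  simpa using mul_mem hy (hN _ fun w hw => h3 ⟨w, hw⟩)

/-- **Perfect subgroups are covered by all the levels.** -/
theorem full (hL : ∀ w, LS (H.L w)) {T : Finset P} (hT : ∀ w ∉ T, (H.L w).SU ≤ Gp (E w))
    {v : P} (hx : ∃ x : E v, Nil x ∧ x ≠ 0) {Q : Type*} [Group Q] [Finite Q]
    (c : unitary A →* Q) (hc : Function.Surjective c) {R : Subgroup Q} (hR : R ≤ ⁅R, R⁆)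
    {S : Finset P} (h1 : H.arch ⊆ S) (hv : v ∈ S) {ε : ℝ} (hε : 0 < ε) {ρ : Q} (hρ : ρ ∈ R) :
    ∃ g : H.M.SU, c g = ρ ∧ g ∈ H.D S ∧ ∀ w ∈ S, w ≠ v → ‖H.j w (g : unitary A) - 1‖ < ε := by
  let N := (c.comp H.M.SU.subtype).ker
  have h := H.not_central hx (N := N) Subgroup.FiniteIndex.index_ne_zero
  obtain ⟨m, hm⟩ := H.ds_cp hL ((S ∪ T).erase v) N h
  have a1 : ∀ m, R ≤ derivedSeries Q m := fun m => by
    induction m with
    | zero => exact le_top
    | succ m ih => exact hR.trans (Subgroup.commutator_mono ih ih)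
  obtain ⟨g, hg, rfl⟩ := (map_derivedSeries_eq hc (m + 1)).ge (a1 _ hρ)
  have a2 : g ∈ H.M.SU := (Subgroup.commutator_le.2 fun a _ b _ => H.M.comm_mem_SU a b :
    derivedSeries (unitary A) (m + 1) ≤ H.M.SU) hg
  obtain ⟨y, hy, b⟩ := H.level h1 hv hx hT N h (g := ⟨g, a2⟩)
    (hm _ (derivedSeries_antitone _ m.le_succ hg)) hε
  refine ⟨_, ?_, b⟩
  rw [Subgroup.coe_mul, map_mul, Subgroup.coe_inv, map_inv, show c y = 1 from hy, inv_one, one_mul]

/-- Approximation of a unipotent element at one place. -/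
theorem den (U : Finset P) (w : U) (N : Subgroup H.M.SU) [N.Normal]
    (h : ¬N ≤ Subgroup.center _) {g : unitary A} (hg : H.jU w g ∈ Gp (E w)) {ε : ℝ} (hε : 0 < ε) :
    ∃ y ∈ N, (∀ u : U, u ≠ w → ‖H.j u (y : unitary A) - 1‖ < ε) ∧
      ‖H.j w ((y : unitary A)⁻¹ * g : unitary A) - 1‖ < ε := by
  have a1 : ∀ᶠ x in 𝓝 (sg w (H.jU w g)), ∀ u : U, u ≠ w → ‖(x u : E u) - 1‖ < ε :=
    eventually_all.2 fun u => by
      by_cases e : u = w
      · exact Eventually.of_forall fun _ a => absurd e a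
      · exact ((Continuous.tendsto' (f := fun x : ∀ v : U, unitary (E v) => ‖(x u : E u) - 1‖)
          (by fun_prop) _ 0 (by simp [sg_ne e])).eventually_lt_const hε).mono fun _ a _ => a
  have a2 : ∀ᶠ x in 𝓝 (sg w (H.jU w g)), ‖(((x w)⁻¹ * H.jU w g : unitary (E w)) : E w) - 1‖ < ε :=
    (Continuous.tendsto' (f := fun x : ∀ v : U, unitary (E v) =>
      ‖(((x w)⁻¹ * H.jU w g : unitary (E w)) : E w) - 1‖) (by fun_prop) _ 0
        (by simp [sg_same])).eventually_lt_const hε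
  have a3 : sg w (H.jU w g) ∈ H.cp U N := H.cp_eq U N ▸ (H.big_of_normal U N h).gp w hg
  obtain ⟨_, h3, y, hy, rfl⟩ := mem_closure_iff_nhds.1 a3 _ (a1.and a2)
  refine ⟨y, hy, h3.1, ?_⟩
  rw [← jU_val, map_mul, map_inv]
  exact h3.2

end Adl

end Vale.Agent.P011UE0
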