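import Vale.Agent.P011UE0.SA2

/-! The levels with respect to one isotropic place. -/

namespace Vale.Agent.P011UE0

open Module Topology Filter Vale.Agent.P011NC
open scoped commutatorElement Pointwise

namespace Adl

variable {k A Ω : Type} [Field k] [Ring A] [StarRing A] [Algebra k A] [Field Ω]
  [Algebra k Ω] {n : ℕ} {P : Type} {F E Om : P → Type} [∀ v, NontriviallyNormedField (F v)]
  [∀ v, NormedRing (E v)] [∀ v, StarRing (E v)] [∀ v, NormedAlgebra (F v) (E v)]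
  [∀ v, Field (Om v)] [∀ v, Algebra (F v) (Om v)] (H : Adl k A Ω n F E Om)
  [∀ v, ContinuousStar (E v)] [∀ v, ProperSpace (F v)] [DecidableEq P]

theorem pole2 {S U : Finset P} (h1 : H.arch ⊆ S) (hU : U ⊆ S) {v : P} (hv : v ∈ S)
    (hvU : v ∉ U) (hx : ∃ x : E v, Nil x ∧ x ≠ 0) (N : Subgroup H.M.SU) [N.Normal]
    (h : ¬N ≤ Subgroup.center _) (Z : Finset P) : ∀ V ∈ 𝓝 (1 : ∀ v : U, unitary (E v)),
      ∀ g : H.M.SU, (∀ w ∉ S, g ∈ H.J w) → (∀ w ∉ S, w ∉ Z → H.q w g ∈ H.K w) →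
        ∃ y ∈ N, H.p U y ∈ V ∧ y⁻¹ * g ∈ H.D S := by
  induction Z using Finset.induction_on with
  | empty =>
    exact fun V hV g _ b => ⟨1, one_mem _, by simpa using mem_of_mem_nhds hV,
      by simpa using H.mem_D'.2 fun w hw => b w hw (by simp)⟩
  | insert w Z _ ih =>
    intro V hV g a b
    by_cases hw : w ∈ S
    · exact ih V hV g a fun v hv hv' => b v hv (by
        rw [Finset.mem_insert, not_or]
        exact ⟨fun e => hv (e ▸ hw), hv'⟩)
    obtain ⟨V', hV', hm⟩ := exists_nhds_one_split hV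
    obtain ⟨u, hu, z, hz, e⟩ := Subgroup.mem_sup_of_normal_left.1 (a w hw)
    have h1' := h1.trans (Finset.subset_insert w S)
    let w' : (insert w U : Finset P) := ⟨w, Finset.mem_insert_self w U⟩
    have s1 := H.sa2 h1' (Finset.insert_subset_insert w hU) (Finset.mem_insert_of_mem hv)
      (by rw [Finset.mem_insert, not_or]; exact ⟨fun e => hw (e ▸ hv), hvU⟩) hx w'
      (H.nst h1' (Finset.insert_nonempty _ _) N h) hu
    have s2 : ∀ᶠ x in 𝓝 (sg w' u), rs (Finset.subset_insert w U) x ∈ V' := by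
      refine ((cont_rs (Finset.subset_insert w U)).tendsto' _ 1 (funext fun r => ?_)).eventually hV'
      refine sg_ne (v := w') (w := ⟨r, Finset.subset_insert w U r.2⟩) (fun e => hw ?_) u
      rw [← show r.1 = w from Subtype.mk.inj e]
      exact hU r.2
    have s3 : ∀ᶠ x in 𝓝 (sg w' u), (x w')⁻¹ * u ∈ H.K w :=
      (Continuous.tendsto' (f := fun x : ∀ v : (insert w U : Finset P), unitary (E v) =>
        (x w')⁻¹ * u) (by fun_prop) _ 1 (by simp [sg_same])).eventually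
          ((H.isOpen_K fun e => hw (h1 e)).mem_nhds (one_mem _))
    obtain ⟨_, h3, y, hy, rfl⟩ := mem_closure_iff_nhds.1 s1 _ (s2.and s3)
    have h4 : H.q w (y⁻¹ * g) ∈ H.K w := by
      rw [map_mul, map_inv, ← e, ← mul_assoc]
      exact mul_mem h3.2 hz
    have h5 : ∀ v ∉ S, v ≠ w → H.q v y⁻¹ ∈ H.K v := fun v hv e =>
      H.mem_D'.1 (inv_mem hy.2) v (by simp [hv, e])
    have h6 := ih V' hV' (y⁻¹ * g) (fun v hv => ?_) fun v hv hv' => ?_
    · obtain ⟨y', b1, b2, b3⟩ := h6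
      refine ⟨y * y', mul_mem hy.1 b1, ?_, by simpa [mul_assoc] using b3⟩
      rw [map_mul]
      exact hm _ h3.1 _ b2
    · by_cases e : v = w
      · exact e ▸ Subgroup.mem_sup_right h4
      · exact mul_mem (Subgroup.mem_sup_right (h5 v hv e)) (a v hv)
    · by_cases e : v = w
      · exact e ▸ h4
      · rw [map_mul]
        exact mul_mem (h5 v hv e) (b v hv (by simp [e, hv']))

/-- **Elements of the closure of `N` are congruent to elements of all levels.** -/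
theorem level {S T : Finset P} (h1 : H.arch ⊆ S) {v : P} (hv : v ∈ S)
    (hx : ∃ x : E v, Nil x ∧ x ≠ 0) (hT : ∀ w ∉ T, (H.L w).SU ≤ Gp (E w)) (N : Subgroup H.M.SU)
    [N.Normal] (h : ¬N ≤ Subgroup.center _) {g : H.M.SU}
    (hg : H.p ((S ∪ T).erase v) g ∈ H.cp _ N) {ε : ℝ} (hε : 0 < ε) :
    ∃ y ∈ N, y⁻¹ * g ∈ H.D S ∧ ∀ w ∈ S, w ≠ v → ‖(H.q w (y⁻¹ * g) : E w) - 1‖ < ε := by
  set U := (S ∪ T).erase v
  have a1 : ∀ᶠ z in 𝓝 (1 : ∀ v : U, unitary (E v)), ∀ u : U,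
      ‖(z u : E u) - 1‖ < ε ∧ (u.1 ∉ H.arch → z u ∈ H.K u) := eventually_all.2 fun u => by
    refine ((Continuous.tendsto' (f := fun y : ∀ v : U, unitary (E v) => ‖(y u : E u) - 1‖)
      (by fun_prop) 1 0 (by simp)).eventually_lt_const hε).and ?_
    by_cases e : u.1 ∈ H.arch
    · exact Eventually.of_forall fun _ a => absurd e a
    · exact (((continuous_apply (A := fun v : U => unitary (E v)) u).tendsto' 1 1 rfl).eventually
        (p := fun z => z ∈ H.K u) ((H.isOpen_K e).mem_nhds (one_mem _))).mono fun _ a _ => a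
  obtain ⟨V, hV, hm⟩ := exists_nhds_one_split a1
  obtain ⟨_, h3, y, hy, rfl⟩ := mem_closure_iff_nhds.1 hg _
    ((Continuous.tendsto' (f := fun x => x⁻¹ * H.p U g) (by fun_prop) _ 1
      (inv_mul_cancel _)).eventually hV)
  obtain ⟨y', b1, b2, b3⟩ := H.pole2 (h1.trans Finset.subset_union_left) (Finset.erase_subset v _)
    (Finset.mem_union_left T hv) (Finset.notMem_erase v _) hx N h
    (H.finite_poles (y⁻¹ * g : H.M.SU)).toFinset _ (inv_mem_nhds_one _ hV) (y⁻¹ * g)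
    (fun w hw => Subgroup.mem_sup_left (hT w (fun e => hw (Finset.mem_union_right _ e))
      (H.q_SU w _))) fun w _ hw => not_not.1 fun e => hw ((Set.Finite.mem_toFinset _).2 e)
  have h4 := hm _ (Set.mem_inv.1 b2) _ h3
  rw [← map_inv, ← map_inv, ← map_mul, ← map_mul] at h4
  refine ⟨y * y', mul_mem hy b1, ?_⟩
  rw [mul_inv_rev, mul_assoc]
  refine ⟨H.mem_D'.2 fun w hw => ?_, fun w hw e =>
    (h4 ⟨w, Finset.mem_erase.2 ⟨e, Finset.mem_union_left _ hw⟩⟩).1⟩
  by_cases e : w ∈ S ∪ T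
  · exact (h4 ⟨w, Finset.mem_erase.2 ⟨fun e => hw (e ▸ hv), e⟩⟩).2 fun e => hw (h1 e)
  · exact H.mem_D'.1 b3 w e

theorem not_central {v : P} (hx : ∃ x : E v, Nil x ∧ x ≠ 0) {N : Subgroup H.M.SU}
    (hN : N.index ≠ 0) : ¬N ≤ Subgroup.center _ := fun h => by
  obtain ⟨g, hg⟩ := H.exists_infOrder
  refine infinite_of_relIndex (X := N) (Y := ⊤) (by rwa [Subgroup.relIndex_top_right])
    ((infinite_zpowers.2 hg).mono (Set.subset_univ _)) ?_
  refine (((H.L v).finite_centre (by have := H.le; omega)).preimage (f := H.q v)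
    ((H.jU_inj v).comp Subtype.val_injective).injOn).subset fun z hz => ⟨H.q_SU v z, ?_⟩
  have h1 : ∀ t ∈ H.clq v, t * H.q v z = H.q v z * t := fun t ht => by
    refine closure_minimal (t := {t | t * H.q v z = H.q v z * t}) ?_
      (isClosed_eq (by fun_prop) (by fun_prop)) ht
    rintro _ ⟨a, rfl⟩
    rw [Set.mem_ofPred_eq, ← map_mul, Subgroup.mem_center_iff.1 (h hz.1) a, map_mul]
  refine (H.L v).central_two H.le hx (C := ‖(H.q v z : E v)‖) fun t ht => ?_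
  rw [← Submonoid.coe_mul, h1 t (H.Gp_le_clq v ht), Submonoid.coe_mul, mul_assoc, t.2.2, mul_one]

/-- **A normal subgroup which contains a level contains the elements close to one at finitely
many places.** -/
theorem open_of_level {S T : Finset P} (h1 : H.arch ⊆ S) {v : P} (hv : v ∈ S)
    (hx : ∃ x : E v, Nil x ∧ x ≠ 0) (hT : ∀ w ∉ T, (H.L w).SU ≤ Gp (E w)) (N : Subgroup H.M.SU)
    [N.Normal] (h : ¬N ≤ Subgroup.center _) {ε : ℝ} (hε : 0 < ε)
    (hN : ∀ g ∈ H.D S, (∀ w ∈ S, w ≠ v → ‖(H.q w g : E w) - 1‖ < ε) → g ∈ N) :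
    ∃ δ : ℝ, 0 < δ ∧ ∀ g : H.M.SU,
      (∀ w ∈ (S ∪ T).erase v, ‖(H.q w g : E w) - 1‖ < δ) → g ∈ N := by
  have a1 := (H.big_of_normal ((S ∪ T).erase v) N h).op
  have a2 : ∀ u : ((S ∪ T).erase v : Finset P), ∃ δ : ℝ, 0 < δ ∧ ∀ g ∈ (H.L u).SU,
      ‖(g : E u) - 1‖ < δ → sg u g ∈ H.cp _ N := fun u => by
    obtain ⟨δ, hδ, e⟩ := Metric.eventually_nhds_iff.1 (a1 u)
    exact ⟨δ, hδ, fun g hg e' => H.cp_eq _ N ▸ e (by
      rwa [Subtype.dist_eq, dist_eq_norm]) hg⟩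
  choose δ hδ a2 using a2
  obtain ⟨δ', h2, h3⟩ := (Set.finite_range δ).isCompact.exists_forall_le' continuousOn_id
    (a := 0) (by rintro _ ⟨u, rfl⟩; exact hδ u)
  refine ⟨δ', h2, fun g hg => ?_⟩
  obtain ⟨y, hy, b1, b2⟩ := H.level h1 hv hx hT N h (g := g) (Subgroup.pi_mem_of_mulSingle_mem _
    fun u => a2 u _ (H.q_SU u g) ((hg u u.2).trans_le (h3 _ ⟨u, rfl⟩))) hε
  simpa using mul_mem hy (hN _ b1 b2)

end Adl

end Vale.Agent.P011UE0
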