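import Vale.Agent.P011UE0.Clos

/-! The normal subgroup theorem for the groups of the `S`-integral points. -/

namespace Vale.Agent.P011UE0

open Module Topology Filter Vale.Agent.P011NC
open scoped commutatorElement Pointwise

namespace Adl

variable {k A Ω : Type} [Field k] [Ring A] [StarRing A] [Algebra k A] [Field Ω]
  [Algebra k Ω] {n : ℕ} {P : Type} {F E Om : P → Type} [∀ v, NontriviallyNormedField (F v)]
  [∀ v, NormedRing (E v)] [∀ v, StarRing (E v)] [∀ v, NormedAlgebra (F v) (E v)]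
  [∀ v, Field (Om v)] [∀ v, Algebra (F v) (Om v)] (H : Adl k A Ω n F E Om)

/-- The diagonal map on the special unitary group. -/
def p (S : Finset P) : H.M.SU →* ∀ v : S, unitary (E v) := (H.pU S).comp H.M.SU.subtype

/-- The map to one completion. -/
def q (v : P) : H.M.SU →* unitary (E v) := (H.jU v).comp H.M.SU.subtype

theorem q_SU (v : P) (g : H.M.SU) : H.q v g ∈ (H.L v).SU := H.jU_SU v g.2

theorem mem_D' {S : Finset P} {g : H.M.SU} : g ∈ H.D S ↔ ∀ v ∉ S, H.q v g ∈ H.K v := H.mem_D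

theorem fin_of (S : Finset P) {C : Set (∀ v : S, unitary (E v))} (hC : IsCompact C) {c : P → ℝ}
    (hc : {v | 1 < c v}.Finite) :
    {g : H.M.SU | H.p S g ∈ C ∧ ∀ v ∉ S, ‖(H.q v g : E v)‖ ≤ c v}.Finite := by
  classical
  choose R hR using fun v : S => (hC.image (f := fun g : ∀ v : S, unitary (E v) =>
    ‖(g v : E v)‖) (by fun_prop)).bddAbove
  have h := H.disc (fun v => if h : v ∈ S then R ⟨v, h⟩ else c v)
    ((S.finite_toSet.union hc).subset fun v hv => by
      by_cases h : v ∈ S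
      · exact Or.inl h
      · exact Or.inr (by simpa [h] using hv))
  refine (h.preimage (f := fun g : H.M.SU => ((g : unitary A) : A))
    (Subtype.val_injective.comp Subtype.val_injective).injOn).subset fun g hg v => ?_
  by_cases h : v ∈ S
  · rw [dif_pos h]
    exact hR ⟨v, h⟩ ⟨_, hg.1, rfl⟩
  · rw [dif_neg h]
    exact hg.2 v h

theorem hprop (S : Finset P) (C : Set (∀ v : S, unitary (E v))) (hC : IsCompact C) :
    {d : H.M.SU | d ∈ H.D S ∧ H.p S d ∈ C}.Finite :=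
  (H.fin_of S hC (c := fun _ => 1) (by simp)).subset fun _ hd =>
    ⟨hd.2, fun v hv => (H.mem_D'.1 hd.1 v hv).1⟩

variable [∀ v, ContinuousStar (E v)] [∀ v, ProperSpace (F v)]

theorem hcoc {S : Finset P} (h1 : H.arch ⊆ S) (h2 : S.Nonempty) :
    ∃ C : Set (∀ v : S, unitary (E v)), IsCompact C ∧
      ∀ l : H.M.SU, ∃ d ∈ H.D S, (H.p S d)⁻¹ * H.p S l ∈ C := by
  obtain ⟨R, hR⟩ := H.coc S h1 h2
  refine ⟨(Set.pi Set.univ fun v : S => {g : unitary (E v) | ‖(g : E v)‖ ≤ R})⁻¹,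
    (isCompact_univ_pi fun v : S => (H.L v).isCompact_ball R).inv, fun l => ?_⟩
  obtain ⟨d, hd, h3, h4⟩ := hR _ l⁻¹.2
  refine ⟨⟨d, hd⟩, H.mem_D.2 fun v hv => ⟨(h3 v hv).1, H.j_star v _ ▸ (h3 v hv).2⟩, ?_⟩
  rw [Set.mem_inv, mul_inv_rev, inv_inv, ← map_inv, ← map_mul]
  exact fun v _ => h4 v v.2

theorem hcomm {S : Finset P} (h1 : H.arch ⊆ S) (h2 : S.Nonempty) (g : H.M.SU) :
    ((H.D S).comap (MulAut.conj g).toMonoidHom).relIndex (H.D S) ≠ 0 := by
  obtain ⟨C, hC, h⟩ := H.hcoc h1 h2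
  refine relIndex_of_fin _ g (H.fin_of S hC (H.fin (g : unitary A))) fun x hx => ?_
  obtain ⟨d, hd, e⟩ := h (g * x)
  refine ⟨d, hd, by simpa using e, fun v hv => ?_⟩
  rw [map_mul, map_mul, Submonoid.coe_mul, Submonoid.coe_mul]
  exact (norm_mul_le _ _).trans ((mul_le_of_le_one_left (norm_nonneg _)
    (H.mem_D'.1 (inv_mem hd) v hv).1).trans ((norm_mul_le _ _).trans
      (mul_le_of_le_one_right (norm_nonneg _) (H.mem_D'.1 hx v hv).1)))

variable [DecidableEq P]

variable {H} in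
theorem Big.index {S : Finset P} {X : Subgroup (∀ v : S, unitary (E v))} (h : H.Big X) :
    (X.comap (H.p S)).index ≠ 0 := by
  have h1 := Subgroup.relIndex_comap_ne_zero (H.p S) h.relIndex
  rwa [(Subgroup.eq_top_iff' ((H.SUS S).comap (H.p S))).2 fun g => H.pU_SUS S g.2,
    Subgroup.relIndex_top_right] at h1

theorem big_of_normal (S : Finset P) (N : Subgroup H.M.SU) [hN : N.Normal]
    (h : ¬N ≤ Subgroup.center _) : H.Big (H.cl S (N.map H.M.SU.subtype)) := by
  obtain ⟨a, ha, hc⟩ := SetLike.not_le_iff_exists.1 h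
  rw [Subgroup.mem_center_iff, not_forall] at hc
  obtain ⟨g, hg⟩ := hc
  refine H.big_N S (Subgroup.map_subtype_le _) ?_ (a := a) ⟨a, ha, rfl⟩ (x := (g : unitary A))
    fun e => hg (Subtype.ext (Subtype.ext e.symm))
  rintro b hb _ ⟨x, hx, rfl⟩
  exact ⟨_, hN.conj_mem x hx ⟨b, hb⟩, rfl⟩

/-- **Normal subgroup theorem.** -/
theorem nst {S : Finset P} (h1 : H.arch ⊆ S) (h2 : S.Nonempty) (N : Subgroup H.M.SU) [N.Normal]
    (h : ¬N ≤ Subgroup.center _) : N.relIndex (H.D S) ≠ 0 := by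
  have hb := H.big_of_normal S N h
  have := fun v : S => (H.L v).locCompact
  have h3 := P011NA.nst_open (H.p S) (H.D S) N _ (fun g _ => H.hcomm h1 h2 g) (H.hprop S)
    (H.hcoc h1 h2) ⟨_, hb.ev, fun g hg hg' => hg ?_⟩ (fun g hg => ?_) hb.gen
    fun χ a b _ => hb.hom a b
  · refine Subgroup.relIndex_ne_zero_trans h3 ?_
    rw [Subgroup.inf_relIndex_left]
    exact fun e => hb.index (Subgroup.index_eq_zero_of_relIndex_eq_zero e)
  · refine H.cl_le le_rfl (closure_mono ?_ hg')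
    rintro _ ⟨l, rfl⟩
    exact ⟨l, l.2, rfl⟩
  · refine closure_mono ?_ hg
    rintro _ ⟨_, ⟨l, hl, rfl⟩, rfl⟩
    exact ⟨l, hl, rfl⟩

theorem exists_infOrder : ∃ g : H.M.SU, ¬IsOfFinOrder g := by
  obtain ⟨v, hv⟩ := H.ex
  have := H.ultra v hv
  obtain ⟨ε, hε, h1⟩ := exists_prime_bound (F v) (H.norm_one v)
  let w : ({v} : Finset P) := ⟨v, Finset.mem_singleton_self v⟩
  have hV := (ev_Kc (H.norm_one v) hε).and (H.ev_loc_Uc {v} w)
  obtain ⟨a, ha, x, hx⟩ := (H.L v).nc_two H.le hV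
  obtain ⟨b, hb, hab⟩ : ∃ b : unitary (E v), (b ∈ Kc (H.norm_one v) hε ∧ b ∈ H.loc {v} H.Uc w) ∧
      (b : E v) * a ≠ a * b := by
    by_contra hc
    push Not at hc
    exact hx ((H.L v).comm_of_ev hV hc x)
  have h2 : IsOpen {g : unitary (E v) | g ∈ Kc (H.norm_one v) hε ∧ g ≠ 1} :=
    (Subgroup.isOpen_of_mem_nhds _ (ev_Kc (H.norm_one v) hε)).inter isOpen_ne
  obtain ⟨_, h3, g, hg, rfl⟩ := mem_closure_iff.1 (H.loc_comm w ha.2 hb.2) _
    (h2.preimage (continuous_apply (A := fun v : ({v} : Finset P) => unitary (E v)) w)) (by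
      rw [Set.mem_preimage, sg_same]
      exact ⟨mul_mem (mul_mem (mul_mem ha.1 hb.1) (inv_mem ha.1)) (inv_mem hb.1), fun e =>
        hab (congrArg Subtype.val (commutatorElement_eq_one_iff_mul_comm.1 e)).symm⟩)
  have h4 : ∀ l : ℕ, l.Prime → ∀ u : unitary A, H.jU v u ∈ Kc (H.norm_one v) hε → u ^ l = 1 →
      u = 1 := fun l hl u hu e => by
    by_cases h5 : (l : F v) = 0
    · have h6 : (l : A) = 0 := H.j_inj v (by
        rw [map_natCast, map_zero, ← map_natCast (algebraMap (F v) (E v)), h5, map_zero])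
      have : Nontrivial (E v) := ⟨1, 0, fun e => by simpa [e] using H.norm_one v⟩
      have := (H.j v).domain_nontrivial
      have := Fact.mk hl
      have := (CharP.charP_iff_prime_eq_zero hl).2 h6
      have := H.red
      refine Subtype.ext (sub_eq_zero.1 (IsNilpotent.eq_zero ⟨l, ?_⟩))
      rw [OneMemClass.coe_one, sub_pow_char_of_commute _ (Commute.one_right _), one_pow,
        ← SubmonoidClass.coe_pow, e]
      simp
    · refine H.jU_inj v (Subtype.ext ((eq_one_of_pow hu.1.1 (hu.2.trans_le (h1 l hl h5)) ?_).trans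
        (map_one (H.j v)).symm))
      rw [← SubmonoidClass.coe_pow, ← map_pow, e, map_one]
      rfl
  have h5 : ∀ m : ℕ, m ≠ 0 → g ^ m = 1 → g = 1 := fun m => by
    induction m using induction_on_primes with
    | zero => simp
    | one => simp
    | prime_mul l m hl ih =>
      refine fun h e => ih (right_ne_zero_of_mul h) (h4 l hl _ ?_ (by rw [← pow_mul', e]))
      rw [map_pow]
      exact pow_mem h3.1 m
  refine ⟨⟨g, H.Cm_le hg⟩, fun h => ?_⟩
  obtain ⟨m, hm, e⟩ := h.exists_pow_eq_one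
  exact h3.2 (by rw [h5 m hm.ne' (congrArg Subtype.val e), map_one]; rfl)

theorem exists_infinite (S : Finset P) :
    ∃ T : Finset P, S ⊆ T ∧ T.Nonempty ∧ (H.D T : Set H.M.SU).Infinite := by
  obtain ⟨g, hg⟩ := H.exists_infOrder
  obtain ⟨v, -⟩ := H.ex
  refine ⟨insert v (S ∪ (H.finite_poles g).toFinset), fun x hx => by simp [hx],
    Finset.insert_nonempty _ _, (infinite_zpowers.2 hg).mono (Subgroup.zpowers_le.2 ?_)⟩
  exact H.mem_D.2 fun w hw => by
    by_contra hc
    exact hw (by simp [hc])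

end Adl

end Vale.Agent.P011UE0
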