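import Vale.Agent.P011UE0.Idx

/-! Strong approximation with respect to one isotropic place. -/

namespace Vale.Agent.P011UE0

open Module Topology Filter Vale.Agent.P011NC
open scoped commutatorElement Pointwise

/-- A pigeonhole principle. -/
theorem exists_close {G T : Type*} [Group G] [Group T] [TopologicalSpace T]
    [IsTopologicalGroup T] (φ : G →* T) {D Y : Subgroup G} (hY : Y.relIndex D ≠ 0) {C : Set T}
    (hC : IsCompact C) (hI : {d | d ∈ D ∧ φ d ∈ C}.Infinite) {V : Set T} (hV : V ∈ 𝓝 1) :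
    ∃ y ∈ Y, y ∈ D ∧ y ≠ 1 ∧ φ y ∈ V := by
  classical
  have h1 : ∀ c : T, {z : T × T | z.1⁻¹ * z.2 ∈ V} ∈ 𝓝 (c, c) := fun c =>
    (Continuous.tendsto' (f := fun z : T × T => z.1⁻¹ * z.2) (by fun_prop) _ 1 (by simp)) hV
  choose W hW W' hW' h2 using fun c => mem_nhds_prod_iff.1 (h1 c)
  obtain ⟨t, -, ht⟩ := hC.elim_nhds_subcover (fun c => W c ∩ W' c)
    fun c _ => inter_mem (hW c) (hW' c)
  have : (Y.subgroupOf D).FiniteIndex := ⟨hY⟩
  have := hI.to_subtype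
  have h3 : ∀ d : {d | d ∈ D ∧ φ d ∈ C}, ∃ c : t, φ d ∈ W c ∩ W' c := fun d => by
    obtain ⟨c, hc, e⟩ := Set.mem_iUnion₂.1 (ht d.2.2)
    exact ⟨⟨c, hc⟩, e⟩
  choose c hc using h3
  obtain ⟨a, b, hab, e⟩ := Finite.exists_ne_map_eq_of_infinite
    fun d : {d | d ∈ D ∧ φ d ∈ C} =>
      (c d, (QuotientGroup.mk (⟨d, d.2.1⟩ : D) : D ⧸ Y.subgroupOf D))
  rw [Prod.mk.injEq, QuotientGroup.eq] at e
  refine ⟨a.1⁻¹ * b.1, e.2, mul_mem (inv_mem a.2.1) b.2.1,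
    fun e' => hab (Subtype.ext (inv_mul_eq_one.1 e')), ?_⟩
  rw [map_mul, map_inv]
  exact h2 (c a) (Set.mk_mem_prod (hc a).1 (e.1 ▸ (hc b).2))

namespace Adl

variable {k A Ω : Type} [Field k] [Ring A] [StarRing A] [Algebra k A] [Field Ω]
  [Algebra k Ω] {n : ℕ} {P : Type} {F E Om : P → Type} [∀ v, NontriviallyNormedField (F v)]
  [∀ v, NormedRing (E v)] [∀ v, StarRing (E v)] [∀ v, NormedAlgebra (F v) (E v)]
  [∀ v, Field (Om v)] [∀ v, Algebra (F v) (Om v)] (H : Adl k A Ω n F E Om)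

theorem p_apply (S : Finset P) (g : H.M.SU) (v : S) : H.p S g v = H.q v g := rfl

/-- The restriction to a smaller set of places. -/
def rs {S U : Finset P} (h : U ⊆ S) (g : ∀ v : S, unitary (E v)) : ∀ v : U, unitary (E v) :=
  fun v => g ⟨v, h v.2⟩

theorem cont_rs {S U : Finset P} (h : U ⊆ S) : Continuous (rs (E := E) h) :=
  continuous_pi fun _ => continuous_apply _

variable [∀ v, ContinuousStar (E v)]

/-- The closure of the image of a subgroup of the special unitary group. -/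
def cp (U : Finset P) (X : Subgroup H.M.SU) : Subgroup (∀ v : U, unitary (E v)) :=
  (X.map (H.p U)).topologicalClosure

theorem cp_eq (U : Finset P) (X : Subgroup H.M.SU) :
    H.cp U X = H.cl U (X.map H.M.SU.subtype) := by
  rw [cp, cl, Subgroup.map_map]
  rfl

theorem mem_cp {U : Finset P} {X : Subgroup H.M.SU} {g : H.M.SU} (hg : g ∈ X) :
    H.p U g ∈ H.cp U X := Subgroup.le_topologicalClosure _ ⟨g, hg, rfl⟩

theorem cp_mono (U : Finset P) {X Y : Subgroup H.M.SU} (h : X ≤ Y) : H.cp U X ≤ H.cp U Y :=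
  Subgroup.topologicalClosure_mono (Subgroup.map_mono h)

theorem isClosed_cp (U : Finset P) (X : Subgroup H.M.SU) :
    IsClosed (H.cp U X : Set (∀ v : U, unitary (E v))) := Subgroup.isClosed_topologicalClosure _

theorem cl_Cm_le (U : Finset P) : H.cl U H.Cm ≤ H.cp U ⊤ := by
  refine Subgroup.topologicalClosure_mono ?_
  rintro _ ⟨g, hg, rfl⟩
  exact ⟨⟨g, H.Cm_le hg⟩, trivial, rfl⟩

variable [∀ v, ProperSpace (F v)]

theorem coc_cp {S : Finset P} (h1 : H.arch ⊆ S) (h2 : S.Nonempty) :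
    ∃ C : Set (∀ v : S, unitary (E v)), IsCompact C ∧
      ∀ t ∈ H.cp S ⊤, ∃ d ∈ H.D S, t * H.p S d ∈ C := by
  obtain ⟨C, hC, h⟩ := H.hcoc h1 h2
  have := fun v : S => (H.L v).locCompact
  obtain ⟨V, hV, hV1⟩ := exists_compact_mem_nhds (1 : ∀ v : S, unitary (E v))
  refine ⟨V * C⁻¹, hV.mul hC.inv, fun t ht => ?_⟩
  obtain ⟨_, a, l, -, rfl⟩ := mem_closure_iff_nhds.1 ht _
    (((continuous_const (y := t)).mul continuous_inv).continuousAt.preimage_mem_nhds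
      (by simpa using hV1))
  obtain ⟨d, hd, e⟩ := h l⁻¹
  refine ⟨d, hd, _, a, H.p S l * H.p S d, ?_, by simp⟩
  rwa [Set.mem_inv, mul_inv_rev, ← map_inv (H.p S) l]

variable [DecidableEq P]

theorem gp_cp (U : Finset P) (w : U) : Gp (E w) ≤ (H.cp U ⊤).comap (sg w) :=
  ((H.big_Cm U).gp w).trans (Subgroup.comap_mono (H.cl_Cm_le U))

theorem inf_cpt {S U : Finset P} (h1 : H.arch ⊆ S) (hU : U ⊆ S) {v : P} (hv : v ∈ S)
    (hvU : v ∉ U) (hx : ∃ x : E v, Nil x ∧ x ≠ 0) : ∃ C : Set (∀ v : U, unitary (E v)),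
      IsCompact C ∧ {d | d ∈ H.D S ∧ H.p U d ∈ C}.Infinite := by
  obtain ⟨C, hC, h⟩ := H.coc_cp h1 ⟨v, hv⟩
  refine ⟨rs hU '' C, hC.image (cont_rs hU), fun hf => ?_⟩
  obtain ⟨x, hx, hx0⟩ := hx
  have h2 : IsCompact ((fun g => g ⟨v, hv⟩) '' C *
      ((H.q v) '' {d | d ∈ H.D S ∧ H.p U d ∈ rs hU '' C})⁻¹) :=
    (hC.image (continuous_apply _)).mul (hf.image _).isCompact.inv
  obtain ⟨R, hR⟩ := (h2.image (f := fun g : unitary (E v) => ‖(g : E v) - 1‖)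
    (by fun_prop)).bddAbove
  obtain ⟨c, hc⟩ := NormedField.exists_lt_norm (F v) (R / ‖x‖)
  have hn := (H.L v).nil_smul hx c
  obtain ⟨d, hd, e⟩ := h _ (H.gp_cp S ⟨v, hv⟩ (un_mem hn))
  have h3 := hR ⟨un hn, ⟨_, ⟨_, e, rfl⟩, (H.q v d)⁻¹, Set.inv_mem_inv.2 ⟨d, ⟨hd, _, e, ?_⟩, rfl⟩,
    ?_⟩, rfl⟩
  · simp only [un_val, add_sub_cancel_left, norm_smul] at h3
    rw [div_lt_iff₀ (norm_pos_iff.2 hx0)] at hc
    exact hc.not_ge h3
  · funext u
    have : (⟨u, hU u.2⟩ : S) ≠ ⟨v, hv⟩ := fun e => hvU (by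
      rw [← show u.1 = v from congrArg Subtype.val e]
      exact u.2)
    simp [rs, sg_ne this, p_apply]
  · simp [sg_same, p_apply]

/-- **Strong approximation with respect to one isotropic place.** -/
theorem sa2 {S U : Finset P} (h1 : H.arch ⊆ S) (hU : U ⊆ S) {v : P} (hv : v ∈ S)
    (hvU : v ∉ U) (hx : ∃ x : E v, Nil x ∧ x ≠ 0) (w : U) {X : Subgroup H.M.SU}
    (hX : X.relIndex (H.D S) ≠ 0) : Gp (E w) ≤ (H.cp U (X ⊓ H.D S)).comap (sg w) := by
  by_cases hy : ∃ x : E w, Nil x ∧ x ≠ 0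
  swap
  · push Not at hy
    refine Gp_le fun x h => ?_
    rw [show un h = 1 from Subtype.ext (by simp [un_val, hy x h])]
    exact one_mem _
  set D := H.D S
  let I := {X : Subgroup H.M.SU // X.relIndex D ≠ 0}
  let c : I → Subgroup (∀ v : U, unitary (E v)) := fun X => H.cp U (X.1 ⊓ D)
  have a1 : IsClosed ((⨅ X, c X : Subgroup _) : Set (∀ v : U, unitary (E v))) := by
    rw [Subgroup.coe_iInf]
    exact isClosed_iInter fun X => H.isClosed_cp _ _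
  have a2 : ∀ a ∈ H.cp U ⊤, ∀ u ∈ ⨅ X, c X, a * u * a⁻¹ ∈ ⨅ X, c X := fun a ha u hu => by
    refine Subgroup.topologicalClosure_minimal _ le_rfl a1
      (clos_conj ?_ a ha u (Subgroup.le_topologicalClosure _ hu))
    rintro _ ⟨g, -, rfl⟩ u hu
    refine Subgroup.mem_iInf.2 fun X => map_mem_closure
      (f := fun u => H.p U g * u * (H.p U g)⁻¹) (by fun_prop) (Subgroup.mem_iInf.1 hu
        ⟨_, relIndex_conj (X := X.1 ⊓ D) (by rw [Subgroup.inf_relIndex_right]; exact X.2) g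
          (H.hcomm h1 ⟨v, hv⟩ g)⟩) ?_
    rintro _ ⟨y, hy, rfl⟩
    exact ⟨_, hy.1, by simp⟩
  have a2' : ∀ a, sg w a ∈ H.cp U ⊤ → ∀ u ∈ (⨅ X, c X).comap (sg w),
      a * u * a⁻¹ ∈ (⨅ X, c X).comap (sg w) := fun a ha u hu => by
    simpa using a2 _ ha _ hu
  obtain ⟨δ, hδ, Ξ, x1, x2, x3⟩ := (H.L w).exit_two H.le hy
  obtain ⟨C, c1, c2⟩ := H.coc_cp h1 ⟨v, hv⟩
  obtain ⟨C', c3, c4⟩ := H.inf_cpt h1 hU hv hvU hx
  let φ : (∀ v : U, unitary (E v)) × unitary (E w) → ∀ v : U, unitary (E v) :=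
    fun z => z.1⁻¹ * sg w z.2 * z.1
  have hφ : Continuous φ := (continuous_fst.inv.mul ((cont_sg w).comp continuous_snd)).mul
    continuous_fst
  have c5 := ((c1.image (cont_rs hU)).prod x1).image hφ
  have a3 : (φ '' (rs hU '' C) ×ˢ Ξ ∩ ⋂ X, c X).Nonempty := by
    by_contra e
    have : Nonempty I := ⟨⟨X, hX⟩⟩
    obtain ⟨X, e'⟩ := c5.elim_directed_family_closed _
      (fun X => H.isClosed_cp _ _) (Set.not_nonempty_iff_eq_empty.1 e)
      fun X Y => ⟨⟨_, Subgroup.relIndex_inf_ne_zero X.2 Y.2⟩,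
        H.cp_mono _ (inf_le_inf_right _ inf_le_left),
        H.cp_mono _ (inf_le_inf_right _ inf_le_right)⟩
    obtain ⟨Y, y1, y2, y3⟩ := exists_core X.2
    obtain ⟨W, hW, w1⟩ := compact_open_separated_mul_right c5 (H.isClosed_cp U _).isOpen_compl
      (Set.disjoint_iff_inter_eq_empty.2 e').subset_compl_right
    have b1 : ∀ᶠ y in 𝓝 (1 : ∀ v : U, unitary (E v)), ∀ s ∈ rs hU '' C,
        s⁻¹ * ((sg w (y w))⁻¹ * y) * s ∈ W :=
      (c1.image (cont_rs hU)).eventually_forall_of_forall_eventually fun s _ =>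
        (Continuous.tendsto' (f := fun z : (∀ v : U, unitary (E v)) × ∀ v : U, unitary (E v) =>
          z.2⁻¹ * ((sg w (z.1 w))⁻¹ * z.1) * z.2) ((continuous_snd.inv.mul ((((cont_sg w).comp
            ((continuous_apply w).comp continuous_fst)).inv).mul continuous_fst)).mul
              continuous_snd) _ 1 (by simp)) hW
    have b2 : ∀ᶠ y in 𝓝 (1 : ∀ v : U, unitary (E v)), ‖(y w : E w) - 1‖ < δ :=
      (Continuous.tendsto' (f := fun y : ∀ v : U, unitary (E v) => ‖(y w : E w) - 1‖)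
        (by fun_prop) 1 0 (by simp)).eventually_lt_const hδ
    obtain ⟨y, hy, -, y4, y5, y6⟩ := exists_close (H.p U) y2 c3 c4 (b1.and b2)
    obtain ⟨t, ht, e1⟩ := x3 _ (H.q_SU w y) (fun e => y4 (Subtype.ext (H.jU_inj w
      (e.trans (map_one _).symm)))) y6
    obtain ⟨d, hd, e2⟩ := c2 _ (H.gp_cp S ⟨w, hU w.2⟩ ht)
    have e3 : rs hU (sg (⟨w, hU w.2⟩ : S) t * H.p S d) = sg w t * H.p U d := by
      funext u
      by_cases h : u = w
      · subst h
        simp [rs, sg_same, p_apply]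
      · have : (⟨u, hU u.2⟩ : S) ≠ ⟨w, hU w.2⟩ := fun e => h (Subtype.ext (Subtype.mk.inj e))
        simp [rs, sg_ne h, sg_ne this, p_apply]
    refine w1 ⟨_, ⟨(_, _), ⟨⟨_, e2, rfl⟩, e1⟩, rfl⟩, _, y5 _ ⟨_, e2, rfl⟩, ?_⟩
      (H.mem_cp (y1 (y3 _ (inv_mem hd) y hy)))
    simp only [φ, e3]
    funext u
    by_cases h : u = w
    · subst h
      simp [sg_same, p_apply, mul_assoc]
    · simp [sg_ne h, p_apply, mul_assoc]
  obtain ⟨_, ⟨⟨s, ξ⟩, hz, rfl⟩, ha⟩ := a3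
  rw [← Subgroup.coe_iInf] at ha
  have e4 : φ (s, ξ) = sg w ((s w)⁻¹ * ξ * s w) := by
    funext u
    by_cases h : u = w
    · subst h
      simp [φ, sg_same]
    · simp [φ, sg_ne h]
  rw [e4] at ha
  have ev := ((H.big_Cm U).op w).mono fun _ a b => H.cl_Cm_le U (a b)
  refine ((H.L w).Gp_le_of_open ((H.L w).open_two H.le (a := (s w)⁻¹ * ξ * s w) ?_ ev
    (fun g a b => mul_mem (a2' g (a b) _ ha) (inv_mem ha)) fun g a b => a2' g (a b))
    fun t ht => a2' t (H.gp_cp U w ht)).trans (Subgroup.comap_mono (iInf_le c ⟨X, hX⟩))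
  by_contra hc
  push Not at hc
  obtain ⟨z, hz'⟩ := x2 ξ hz.2
  have e : ξ = (s w)⁻¹ * ξ * s w := by
    rw [← conj_central (c := s w) hc]
    group
  exact hz' (e ▸ hc z)

end Adl

end Vale.Agent.P011UE0
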